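import Crest.Agent.R251.Deg.Pert

/-!
# Row 251: collapsing the complement of a neighbourhood of the negative reals to `1`

`mm q = q.re + ‖q‖ ≥ 0` vanishes exactly on the non-positive reals.
Recipes: `Real.smoothTransition.zero_of_nonpos`, `one_of_one_le`, `nonneg`, `le_one`, `contDiff`; `contDiffAt_norm ℝ` away from zero.
`col_ne`: if `(1 - a) • q + a = 0` with `a = s * k ∈ [0, 1]`, then `a ≠ 1`, `q` is a non-positive real, so `mm q = 0`, `k = 0`, `q = 0`.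
-/

set_option autoImplicit false
set_option linter.unusedSectionVars false

open Set Filter Topology Quaternion

namespace Crest.Agent.R251.Deg

/-- distance-like function to the non-positive reals -/
noncomputable def mm (q : ℍ[ℝ]) : ℝ := q.re + ‖q‖

/-- the collapse -/
noncomputable def col (δ s : ℝ) (q : ℍ[ℝ]) : ℍ[ℝ] :=
  (1 - s * Real.smoothTransition (mm q / δ - 1)) • q + ((s * Real.smoothTransition (mm q / δ - 1) : ℝ) : ℍ[ℝ])

theorem continuous_mm : Continuous mm := by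
  exact Quaternion.continuous_re.add continuous_norm

theorem Col_sq (q : ℍ[ℝ]) : ‖q‖ ^ 2 = q.re ^ 2 + q.imI ^ 2 + q.imJ ^ 2 + q.imK ^ 2 := by
  rw [sq, ← normSq_eq_norm_mul_self, normSq_def']

theorem Col_ng {q : ℍ[ℝ]} : Ng q ↔ q.imI = 0 ∧ q.imJ = 0 ∧ q.imK = 0 ∧ q.re < 0 := by
  constructor
  · rintro ⟨h1, h2⟩
    exact ⟨congrArg QuaternionAlgebra.imI h1, congrArg QuaternionAlgebra.imJ h1, congrArg QuaternionAlgebra.imK h1, h2⟩
  · rintro ⟨h1, h2, h3, h4⟩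
    refine ⟨?_, h4⟩
    ext <;> simp [h1, h2, h3]

theorem mm_nonneg (q : ℍ[ℝ]) : 0 ≤ mm q := by
  have h := Col_sq q
  have h1 : |q.re| ≤ ‖q‖ := abs_le_of_sq_le_sq' (by nlinarith [sq_nonneg q.imI, sq_nonneg q.imJ, sq_nonneg q.imK])
    (norm_nonneg q) |> abs_le.2
  have := (abs_le.1 h1).1
  rw [mm]
  linarith

theorem Col_mm_zero {q : ℍ[ℝ]} (h1 : q.imI = 0) (h2 : q.imJ = 0) (h3 : q.imK = 0) (h4 : q.re ≤ 0) : mm q = 0 := by
  have h := Col_sq q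
  rw [h1, h2, h3] at h
  have : ‖q‖ = -q.re := (pow_left_inj₀ (norm_nonneg q) (neg_nonneg.2 h4) two_ne_zero).1 (by linarith)
  rw [mm, this, add_neg_cancel]

theorem mm_eq_zero {q : ℍ[ℝ]} (hq : q ≠ 0) : mm q = 0 ↔ Ng q := by
  rw [Col_ng]
  refine ⟨fun h => ?_, fun h => Col_mm_zero h.1 h.2.1 h.2.2.1 h.2.2.2.le⟩
  have h1 := Col_sq q
  have h2 : ‖q‖ = -q.re := by rw [mm] at h; linarith
  have h3 := norm_pos_iff.2 hq
  rw [h2] at h1
  refine ⟨?_, ?_, ?_, by linarith⟩ <;> nlinarith [sq_nonneg q.imI, sq_nonneg q.imJ, sq_nonneg q.imK]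

theorem col_zero (δ : ℝ) (q : ℍ[ℝ]) : col δ 0 q = q := by
  simp [col]

theorem col_of_le {δ : ℝ} (hδ : 0 < δ) (s : ℝ) {q : ℍ[ℝ]} (h : mm q ≤ δ) : col δ s q = q := by
  rw [col, Real.smoothTransition.zero_of_nonpos (sub_nonpos.2 ((div_le_one hδ).2 h))]
  simp

theorem col_one_of_le {δ : ℝ} (hδ : 0 < δ) {q : ℍ[ℝ]} (h : 2 * δ ≤ mm q) : col δ 1 q = 1 := by
  rw [col, Real.smoothTransition.one_of_one_le (by rw [le_sub_iff_add_le, le_div_iff₀ hδ]; linarith)]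
  simp

theorem Col_aux {δ s : ℝ} (hδ : 0 < δ) (hs : s ∈ Icc (0 : ℝ) 1) {q : ℍ[ℝ]} (h1 : (col δ s q).imI = 0)
    (h2 : (col δ s q).imJ = 0) (h3 : (col δ s q).imK = 0) (h4 : (col δ s q).re ≤ 0) : col δ s q = q := by
  refine col_of_le hδ s ?_
  have ha0 : 0 ≤ s * Real.smoothTransition (mm q / δ - 1) := mul_nonneg hs.1 (Real.smoothTransition.nonneg _)
  have ha1 : s * Real.smoothTransition (mm q / δ - 1) ≤ 1 :=
    mul_le_one₀ hs.2 (Real.smoothTransition.nonneg _) (Real.smoothTransition.le_one _)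
  rw [col] at h1 h2 h3 h4
  generalize s * Real.smoothTransition (mm q / δ - 1) = a at *
  simp at h1 h2 h3 h4
  have h5 : 1 - a ≠ 0 := fun h => by
    rw [h] at h4
    linarith
  have h6 : 0 < 1 - a := (sub_nonneg.2 ha1).lt_of_ne' h5
  rw [Col_mm_zero (h1.resolve_left h5) (h2.resolve_left h5) (h3.resolve_left h5) (by nlinarith)]
  exact hδ.le

theorem col_ne {δ s : ℝ} (hδ : 0 < δ) (hs : s ∈ Icc (0 : ℝ) 1) {q : ℍ[ℝ]} (hq : q ≠ 0) : col δ s q ≠ 0 := by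
  intro h
  exact hq ((Col_aux hδ hs (by rw [h]; rfl) (by rw [h]; rfl) (by rw [h]; rfl) (by rw [h]; exact le_rfl)).symm.trans h)

theorem ng_col {δ s : ℝ} (hδ : 0 < δ) (hs : s ∈ Icc (0 : ℝ) 1) {q : ℍ[ℝ]} (hq : q ≠ 0) : Ng (col δ s q) ↔ Ng q := by
  refine ⟨fun h => ?_, fun h => ?_⟩
  · obtain ⟨h1, h2, h3, h4⟩ := Col_ng.1 h
    rwa [Col_aux hδ hs h1 h2 h3 h4.le] at h
  · rwa [col_of_le hδ s (((mm_eq_zero hq).2 h).trans_le hδ.le)]

theorem col_conj (δ s : ℝ) {p : ℍ[ℝ]} (hp : p ≠ 0) (q : ℍ[ℝ]) : col δ s (p * q * p⁻¹) = p * col δ s q * p⁻¹ := by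
  have hn : ‖p‖ ≠ 0 := norm_ne_zero_iff.2 hp
  have h : mm (p * q * p⁻¹) = mm q := by
    rw [mm, mm, re_conj hp, norm_mul, norm_mul, norm_inv, mul_comm ‖p‖, mul_inv_cancel_right₀ hn]
  rw [col, col, h, mul_add, add_mul, mul_smul_comm, smul_mul_assoc, ← Quaternion.coe_commutes,
    mul_inv_cancel_right₀ hp]

theorem contDiffAt_col (δ s : ℝ) {q : ℍ[ℝ]} (hq : q ≠ 0) :
    ContDiffAt ℝ 1 (fun p : ℝ × ℍ[ℝ] => col δ p.1 p.2) (s, q) := by
  have h1 : ContDiffAt ℝ 1 mm q := contDiff_re.contDiffAt.add (contDiffAt_norm ℝ hq)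
  have h2 : ContDiffAt ℝ 1 (fun p : ℝ × ℍ[ℝ] => mm p.2) (s, q) :=
    ContDiffAt.comp (g := mm) (s, q) h1 contDiffAt_snd
  have h3 : ContDiffAt ℝ 1 (fun p : ℝ × ℍ[ℝ] => p.1 * Real.smoothTransition (mm p.2 / δ - 1)) (s, q) :=
    contDiffAt_fst.mul (Real.smoothTransition.contDiffAt.comp (s, q) ((h2.div_const δ).sub contDiffAt_const))
  have h4 : (fun p : ℝ × ℍ[ℝ] => col δ p.1 p.2) = fun p =>
      (1 - p.1 * Real.smoothTransition (mm p.2 / δ - 1)) • p.2 +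
        (p.1 * Real.smoothTransition (mm p.2 / δ - 1)) • (1 : ℍ[ℝ]) := by
    funext p
    rw [col, ← Quaternion.coe_one, Quaternion.smul_coe, mul_one]
  rw [h4]
  exact ((contDiffAt_const.sub h3).smul contDiffAt_snd).add (h3.smul contDiffAt_const)

variable {ι : Type} [Fintype ι] [DecidableEq ι]

theorem SM.col {f : Tup ι → ℍ[ℝ]} (hf : SM f) {δ : ℝ} (hδ : 0 < δ) : HSM fun s y => col δ s (f y) := by
  have hd : ∀ s : ℝ, ∀ y, UnitT y → ContDiffAt ℝ 1 (fun p : ℝ × Tup ι => Deg.col δ p.1 (f p.2)) (s, y) :=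
    fun s y hy => ContDiffAt.comp (g := fun p : ℝ × ℍ[ℝ] => Deg.col δ p.1 p.2) (f := fun p : ℝ × Tup ι => (p.1, f p.2))
      (s, y) (contDiffAt_col δ s (hf.ne y hy)) (contDiffAt_fst.prodMk ((hf.diff y hy).comp (s, y) contDiffAt_snd))
  refine ⟨fun s _ => hd s, fun s hs => ⟨fun y hy => ?_, fun y q hy hq => ?_, fun y hy => col_ne hδ hs (hf.ne y hy)⟩⟩
  · exact ContDiffAt.comp (g := fun p : ℝ × Tup ι => Deg.col δ p.1 (f p.2)) (f := fun z => (s, z)) y (hd s y hy)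
      (contDiffAt_const.prodMk contDiffAt_id)
  · rw [hf.equi y q hy hq, col_conj δ s (qu_ne hq)]

end Crest.Agent.R251.Deg
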