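import Crest.Agent.R251.Deg.NN
import Crest.Agent.R251.Deg.Col

/-!
# Row 251: `NN` is additive in a slot under pointwise products

Recipes.
* `cnt_mul`: `C = {y | UnitT y ∧ ∀ j ≠ some a, Ng (f j y)}` is compact (closed in `isCompact_unitT`: `Ng (f j y) ↔ mm (f j y) = 0`).  On `C` the
  continuous function `mm (g y) + mm (g' y)` is positive: if `Ng (g y)` and `Ng (g' y)`, then `t`, `u` do not commute (`hg`), conjugate `y` into the
  slice (`exists_slicePair`, `SM.equi`, `ng_conj`) and contradict `h`.  So it is `≥ 5 δ` on `C` for some `δ > 0`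
  (`IsCompact.exists_forall_le'`), and at every `y ∈ C`: `2 δ < mm (g y)` or `2 δ < mm (g' y)`, i.e. `col δ 1 (g y) = 1` or `col δ 1 (g' y) = 1`.
  With `ng_col`: on `C`, `Ng (col δ 1 (g y) * col δ 1 (g' y)) ↔ Ng (g y) ∨ Ng (g' y)` (if `Ng (g y)` then `mm (g y) = 0`, so `2 δ < mm (g' y)`).
  This gives `Good` and the splitting of `Zs`; near a point with `Ng (g y)`: `mm (g ·) < δ` and `2 δ < mm (g' ·)` (continuity at `y`), so the product
  is `g` there; `cnt_split`.
* `NN_mul`: `J = Option (Option ι)`, `e₁ = some`, `e₂ j = if j = some a then none else some j`, big system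
  `fun k => match k with | none => g' | some j => Function.update f (some a) g j`.  `exists_notMem` for `genB1 e₁`, `genB1 e₂`, `genS` gives `l`.
  Put `G y = g y * (1 + pert (l (some (some a))) y)`, `G' y = g' y * (1 + pert (l none) y)`, `F = pf f (l ∘ some)`; then
  `pf (update f (some a) g) (l ∘ e₁) = update F (some a) G` and `pf (update f (some a) g') (l ∘ e₂) = update F (some a) G'` (`funext`, cases),
  so `NN_eq` identifies the right side with `cnt + cnt`.  Left side: `NN_slot` for `s ↦ g (1 + pert (s • _)) * (g' (1 + pert (s • _)))`, then for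
  `s ↦ col δ s (G y) * col δ s (G' y)`, then `NN_eq` with `l' = update (l ∘ some) (some a) 0` and `cnt_mul`.
-/

set_option autoImplicit false
set_option linter.unusedSectionVars false

open Set Filter Topology Quaternion Function

namespace Crest.Agent.R251.Deg

variable {ι : Type} [Fintype ι] [DecidableEq ι]

theorem Add_forall {f : Sys ι} {a : ι} {g : Tup ι → ℍ[ℝ]} {y : Tup ι} :
    (∀ j, Ng (update f (some a) g j y)) ↔ (∀ j, j ≠ some a → Ng (f j y)) ∧ Ng (g y) := by
  constructor
  · intro h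
    refine ⟨fun j hj => ?_, ?_⟩
    · simpa only [update_of_ne hj] using h j
    · simpa only [update_self] using h (some a)
  · rintro ⟨h1, h2⟩ j
    by_cases hj : j = some a
    · rw [hj, update_self]; exact h2
    · rw [update_of_ne hj]; exact h1 j hj

theorem Add_sm {f : Sys ι} (hf : ∀ j, SM (f j)) (a : ι) {g : Tup ι → ℍ[ℝ]} (hg : SM g) (j : Option ι) :
    SM (update f (some a) g j) := by
  by_cases hj : j = some a
  · rw [hj, update_self]; exact hg
  · rw [update_of_ne hj]; exact hf j

theorem Add_ev {f : Sys ι} {a : ι} {g g' : Tup ι → ℍ[ℝ]} {y : Tup ι} (h : g =ᶠ[𝓝 y] g') (j : Option ι) :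
    update f (some a) g j =ᶠ[𝓝 y] update f (some a) g' j := by
  by_cases hj : j = some a
  · rw [hj, update_self, update_self]; exact h
  · rw [update_of_ne hj, update_of_ne hj]

theorem cnt_mul {f : Sys ι} (hf : ∀ j, SM (f j)) (a : ι) {g g' : Tup ι → ℍ[ℝ]} (sg : SM g) (sg' : SM g')
    (hg : Good (update f (some a) g)) (hg' : Good (update f (some a) g'))
    (h : ∀ y, UnitT y → Slice y → (∀ j, Ng (update f (some a) g j y)) → ¬Ng (g' y)) :
    ∃ δ : ℝ, 0 < δ ∧ Good (update f (some a) fun y => col δ 1 (g y) * col δ 1 (g' y)) ∧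
      cnt (update f (some a) fun y => col δ 1 (g y) * col δ 1 (g' y)) =
        cnt (update f (some a) g) + cnt (update f (some a) g') := by
  set C : Set (Tup ι) := {y | UnitT y ∧ ∀ j, j ≠ some a → Ng (f j y)} with hC
  have hcont : ∀ {k : Tup ι → ℍ[ℝ]}, SM k → ∀ y, UnitT y → ContinuousAt (fun z => mm (k z)) y :=
    fun hk y hy => continuous_mm.continuousAt.comp (hk.diff y hy).continuousAt
  have hCc : IsCompact C := by
    have h1 : C = {y : Tup ι | UnitT y} ∩ ⋂ j : {j : Option ι // j ≠ some a},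
        ({y : Tup ι | UnitT y} ∩ (fun z => mm (f j z)) ⁻¹' {0}) := by
      ext y
      simp only [hC, mem_ofPred_eq, mem_inter_iff, mem_iInter, mem_preimage, mem_singleton_iff, Subtype.forall]
      exact and_congr_right fun hy => forall₂_congr fun j _ => by
        rw [mm_eq_zero ((hf j).ne y hy), and_iff_right hy]
    rw [h1]
    refine isCompact_unitT.inter_right (isClosed_iInter fun j => ?_)
    exact ContinuousOn.preimage_isClosed_of_isClosed
      (fun y hy => (hcont (hf j) y hy).continuousWithinAt) isCompact_unitT.isClosed isClosed_singleton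
  have hno : ∀ y ∈ C, Ng (g y) → ¬Ng (g' y) := by
    intro y hy h1 h2
    have h3 := Add_forall.2 ⟨hy.2, h1⟩
    obtain ⟨q, hq, hs⟩ := exists_slicePair (hg y hy.1 h3)
    have hq0 := qu_ne hq
    refine h (cj q y) (hy.1.cj hq0) hs (fun j => ?_) ?_
    · rw [(Add_sm hf a sg j).equi y q hy.1 hq, ng_conj hq0]
      exact h3 j
    · rw [sg'.equi y q hy.1 hq, ng_conj hq0]
      exact h2
  obtain ⟨m, hm, hmC⟩ := hCc.exists_forall_le' (f := fun y => mm (g y) + mm (g' y)) (a := 0)
    (fun y hy => ((hcont sg y hy.1).add (hcont sg' y hy.1)).continuousWithinAt) (fun y hy => by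
      refine (add_nonneg (mm_nonneg _) (mm_nonneg _)).lt_of_ne' fun h0 => ?_
      have h1 := mm_nonneg (g y)
      have h2 := mm_nonneg (g' y)
      exact hno y hy ((mm_eq_zero (sg.ne y hy.1)).1 (by linarith)) ((mm_eq_zero (sg'.ne y hy.1)).1 (by linarith)))
  have hδ : 0 < m / 5 := by positivity
  have hev : ∀ y ∈ C, Ng (g y) → g =ᶠ[𝓝 y] fun z => col (m / 5) 1 (g z) * col (m / 5) 1 (g' z) := by
    intro y hy h1
    have h2 := (mm_eq_zero (sg.ne y hy.1)).2 h1
    have h3 := hmC y hy
    filter_upwards [(hcont sg y hy.1).eventually_lt (g := fun _ => m / 5) continuousAt_const (by linarith),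
      continuousAt_const.eventually_lt (f := fun _ => 2 * (m / 5)) (hcont sg' y hy.1) (by linarith)] with z h4 h5
    rw [col_of_le hδ 1 h4.le, col_one_of_le hδ h5.le, mul_one]
  have hev' : ∀ y ∈ C, Ng (g' y) → g' =ᶠ[𝓝 y] fun z => col (m / 5) 1 (g z) * col (m / 5) 1 (g' z) := by
    intro y hy h1
    have h2 := (mm_eq_zero (sg'.ne y hy.1)).2 h1
    have h3 := hmC y hy
    filter_upwards [(hcont sg' y hy.1).eventually_lt (g := fun _ => m / 5) continuousAt_const (by linarith),
      continuousAt_const.eventually_lt (f := fun _ => 2 * (m / 5)) (hcont sg y hy.1) (by linarith)] with z h4 h5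
    rw [col_of_le hδ 1 h4.le, col_one_of_le hδ h5.le, one_mul]
  have hiff : ∀ y ∈ C, Ng (col (m / 5) 1 (g y) * col (m / 5) 1 (g' y)) ↔ Ng (g y) ∨ Ng (g' y) := by
    intro y hy
    refine ⟨fun h1 => ?_, fun h1 => h1.elim (fun h2 => (hev y hy h2).eq_of_nhds ▸ h2)
      fun h2 => (hev' y hy h2).eq_of_nhds ▸ h2⟩
    have h3 := hmC y hy
    by_cases h4 : 2 * (m / 5) ≤ mm (g' y)
    · rw [col_one_of_le hδ h4, mul_one, ng_col hδ (right_mem_Icc.2 zero_le_one) (sg.ne y hy.1)] at h1
      exact Or.inl h1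
    · rw [col_one_of_le hδ (q := g y) (by linarith), one_mul,
        ng_col hδ (right_mem_Icc.2 zero_le_one) (sg'.ne y hy.1)] at h1
      exact Or.inr h1
  refine ⟨m / 5, hδ, fun y hy h1 => ?_, cnt_split (Add_sm hf a sg) (Add_sm hf a sg') hg hg' ?_ ?_ ?_ ?_⟩
  · obtain ⟨h2, h3⟩ := Add_forall.1 h1
    rcases (hiff y ⟨hy, h2⟩).1 h3 with h4 | h4
    · exact hg y hy (Add_forall.2 ⟨h2, h4⟩)
    · exact hg' y hy (Add_forall.2 ⟨h2, h4⟩)
  · ext y
    simp only [Zs, mem_union, mem_ofPred_eq, Add_forall]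
    constructor
    · rintro ⟨h1, h2, h3, h4⟩
      exact ((hiff y ⟨h1, h3⟩).1 h4).imp (fun h5 => ⟨h1, h2, h3, h5⟩) fun h5 => ⟨h1, h2, h3, h5⟩
    · rintro (⟨h1, h2, h3, h4⟩ | ⟨h1, h2, h3, h4⟩)
      · exact ⟨h1, h2, h3, (hiff y ⟨h1, h3⟩).2 (Or.inl h4)⟩
      · exact ⟨h1, h2, h3, (hiff y ⟨h1, h3⟩).2 (Or.inr h4)⟩
  · refine Set.disjoint_left.2 fun y h1 h2 => ?_
    exact h y h1.1 h1.2.1 h1.2.2 (Add_forall.1 h2.2.2).2
  · intro y hy
    obtain ⟨h2, h3⟩ := Add_forall.1 hy.2.2
    exact Add_ev (hev y ⟨hy.1, h2⟩ h3)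
  · intro y hy
    obtain ⟨h2, h3⟩ := Add_forall.1 hy.2.2
    exact Add_ev (hev' y ⟨hy.1, h2⟩ h3)

theorem Add_pf (f : Sys ι) (a : ι) (g : Tup ι → ℍ[ℝ]) (l : Option ι → KK ι → ℝ) (m : KK ι → ℝ) :
    pf (update f (some a) g) (update l (some a) m) = update (pf f l) (some a) fun y => g y * (1 + pert m y) := by
  funext j y
  by_cases hj : j = some a
  · simp only [hj, pf, update_self]
  · simp only [pf, update_of_ne hj]

theorem NN_mul {f : Sys ι} (hf : Adm f) (a : ι) {g g' : Tup ι → ℍ[ℝ]} (hg : SM g) (hg' : SM g') :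
    NN (update f (some a) fun y => g y * g' y) = NN (update f (some a) g) + NN (update f (some a) g') := by
  let e₂ : Option ι → Option (Option ι) := fun j => if j = some a then none else some j
  have he₂ : Injective e₂ := by
    intro j j' hj
    simp only [e₂] at hj
    split_ifs at hj with h1 h2 h2
    · rw [h1, h2]
    · exact Option.some_injective _ hj
  let big : Option (Option ι) → Tup ι → ℍ[ℝ] := fun k => match k with
    | none => g'
    | some j => update f (some a) g j
  have hbig : ∀ k, SM (big k) := fun k => by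
    cases k with
    | none => exact hg'
    | some j => exact (hf.update a hg).sm j
  obtain ⟨l, h₁, h₂, h₃⟩ := exists_notMem (Λ := Option (Option ι) → KK ι → ℝ)
    (genB1 some (Option.some_injective _) (hf.update a hg)) (genB1 e₂ he₂ (hf.update a hg')) (genS big hbig)
  simp only [mem_ofPred_eq, not_not, not_exists, not_and] at h₁ h₂ h₃
  have e1 : (fun j => l (some j)) = update (fun j => l (some j)) (some a) (l (some (some a))) :=
    (update_eq_self (some a) fun j => l (some j)).symm
  have e2 : (fun j => l (e₂ j)) = update (fun j => l (some j)) (some a) (l none) := by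
    funext j
    by_cases hj : j = some a
    · simp [e₂, hj]
    · simp [e₂, hj]
  rw [NN_eq (hf.update a hg) h₁, NN_eq (hf.update a hg') h₂]
  rw [e1, Add_pf] at h₁
  rw [e2, Add_pf] at h₂
  have hG := hg.mul (SM.pert (l (some (some a))))
  have hG' := hg'.mul (SM.pert (l none))
  obtain ⟨δ, hδ, h4, h5⟩ := cnt_mul (f := pf f fun j => l (some j)) (fun j => (hf.sm j).mul (SM.pert _)) a hG hG'
    h₁ h₂ (fun y hy hs h6 h7 => h₃ y hy hs fun k => by
      cases k with
      | none => exact h7
      | some j =>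
        have := h6 j
        rw [← Add_pf, ← e1] at this
        exact this)
  rw [e2, Add_pf]
  conv_rhs => rw [e1, Add_pf]
  rw [← e1, ← h5]
  have s1 := NN_slot hf a ((hg.hsm.mul (HSM.pert (l := fun s => s • l (some (some a)))
    (contDiff_id.smul contDiff_const))).mul (hg'.hsm.mul (HSM.pert (l := fun s => s • l none)
    (contDiff_id.smul contDiff_const))))
  have s2 := NN_slot hf a ((hG.col hδ).mul (hG'.col hδ))
  simp only [zero_smul, one_smul, pert_zero, add_zero, mul_one] at s1
  simp only [col_zero] at s2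
  have h6 := Add_pf f a (fun y => col δ 1 (g y * (1 + pert (l (some (some a))) y)) *
    col δ 1 (g' y * (1 + pert (l none) y))) (fun j => l (some j)) 0
  simp only [pert_zero, add_zero, mul_one] at h6
  rw [s1, s2, NN_eq (hf.update a (((hG.col hδ).mul (hG'.col hδ)).sm 1 (right_mem_Icc.2 zero_le_one)))
    (h6 ▸ h4), h6]

end Crest.Agent.R251.Deg
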