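import Crest.Agent.R174.PosDeg

/-!
# Row 251, degree theory A: the degree integral of an isolated compact set of zeros

`dI μ φ F V c = ∫_V φ (c F) det D(c F)` for a fixed bump `φ` supported in the unit ball; for `c → ∞` it is eventually
constant and independent of the neighbourhood `V` of the zero set `Z`.

Recipes.
* `exists_bump`: `ψ y = max 0 (1 - ‖y‖)` is continuous with compact support, `0 < ∫ ψ`
  (`Continuous.integral_pos_of_hasCompactSupport_nonneg_nonzero`), `φ = (∫ ψ)⁻¹ * ψ`.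
* `Iso.exists_nb`: `O = {x | ∀ᶠ y in 𝓝 x, ContDiffAt ℝ 1 F y ∧ (F y = 0 → y ∈ Z)}` is open (`isOpen_setOf_eventually_nhds`),
  contains `Z` (`ContDiffAt.eventually`), `exists_compact_between`.
* `key`: `O = {p | ContDiffAt ℝ 1 H p}` is open and contains `L`; `R174.PosDeg_cutoff` gives `ρ`, `= 1` on an open `U ⊇ L`, zero off a
  compact `K ⊆ O`.  `H' = ρ • H` is `C¹` everywhere (on `O` a product, off `K` locally zero) and `= H` on `U`, so both
  integrals are the same for `H'` (`setIntegral_congr_fun`, `Filter.EventuallyEq.fderiv_eq`).  `R174.PosDeg_loc` with `δ = 1` and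
  local constancy on `Icc 0 1` exactly as in the proof of `R174.posdeg`.
* `Nb.eventually_lt`: `‖F‖` has a positive lower bound on the compact set (`IsCompact.exists_forall_le'`).
* `dI_shrink`: `setIntegral_eq_of_subset_of_forall_sdiff_eq_zero`; on the compact set `L \ V` there is no zero.
* `exists_degAt`: fix `L₀` from `exists_nb`.  For large `c, c'` apply `key` to `H (t, x) = ((1 - t) * c + t * c') • F x` and
  `Icc (-1) 2 ×ˢ L₀` (`interior_prod_eq`, `interior_Icc`): `dI F (interior L₀) c` is eventually a constant `d`.  For any `L, V`: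
  `dI F V c = dI F (V ∩ interior L₀) c = dI F (interior L₀) c` eventually (`dI_shrink` for `L` and for `L₀`).
-/

set_option autoImplicit false

open MeasureTheory Set Filter Topology

namespace Crest.Agent.R251.Deg

variable {E : Type} [NormedAddCommGroup E] [NormedSpace ℝ E]

/-- `Z` is a compact, isolated set of zeros of `F`, and `F` is `C¹` near `Z` -/
structure Iso (F : E → E) (Z : Set E) : Prop where
  cpt : IsCompact Z
  zero : ∀ x ∈ Z, F x = 0
  diff : ∀ x ∈ Z, ContDiffAt ℝ 1 F x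
  iso : ∀ x ∈ Z, ∀ᶠ y in 𝓝 x, F y = 0 → y ∈ Z

/-- the same for a homotopy with parameter in `[0, 1]` -/
structure HIso (H : ℝ × E → E) (W : Set (ℝ × E)) : Prop where
  cpt : IsCompact W
  mem : ∀ p ∈ W, p.1 ∈ Icc (0 : ℝ) 1
  zero : ∀ p ∈ W, H p = 0
  diff : ∀ p ∈ W, ContDiffAt ℝ 1 H p
  iso : ∀ p ∈ W, ∀ᶠ q in 𝓝 p, q.1 ∈ Icc (0 : ℝ) 1 → H q = 0 → q ∈ W

/-- an admissible compact neighbourhood of the zero set -/
structure Nb (F : E → E) (Z L : Set E) : Prop where
  cpt : IsCompact L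
  sub : Z ⊆ interior L
  diff : ∀ x ∈ L, ContDiffAt ℝ 1 F x
  zero : ∀ x ∈ L, F x = 0 → x ∈ Z

/-- on a compact set without zeros `c • F` is eventually large -/
theorem eventually_lt {X : Type} [TopologicalSpace X] {F : X → E} {K : Set X} (hK : IsCompact K)
    (hF : ContinuousOn F K) (h0 : ∀ x ∈ K, F x ≠ 0) (r : ℝ) :
    ∀ᶠ c : ℝ in atTop, ∀ x ∈ K, r < ‖c • F x‖ := by
  obtain ⟨a, ha, h⟩ := hK.exists_forall_le' hF.norm fun x hx => norm_pos_iff.2 (h0 x hx)
  filter_upwards [eventually_gt_atTop (r / a), eventually_ge_atTop 0] with c hc hc0 x hx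
  rw [norm_smul, Real.norm_of_nonneg hc0]
  exact ((div_lt_iff₀ ha).1 hc).trans_le (mul_le_mul_of_nonneg_left (h x hx) hc0)

variable [FiniteDimensional ℝ E]

theorem Iso.exists_nb {F : E → E} {Z : Set E} (h : Iso F Z) {O : Set E} (hO : IsOpen O) (hZO : Z ⊆ O) :
    ∃ L, Nb F Z L ∧ L ⊆ O := by
  obtain ⟨L, hL, h1, h2⟩ := exists_compact_between h.cpt
    (U := {x | ∀ᶠ y in 𝓝 x, ContDiffAt ℝ 1 F y ∧ (F y = 0 → y ∈ Z)} ∩ O)
    (isOpen_setOfPred_eventually_nhds.inter hO)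
    fun x hx => ⟨((h.diff x hx).eventually (by simp)).and (h.iso x hx), hZO hx⟩
  exact ⟨L, ⟨hL, h1, fun x hx => (h2 hx).1.self_of_nhds.1, fun x hx => (h2 hx).1.self_of_nhds.2⟩,
    fun x hx => (h2 hx).2⟩

variable [MeasurableSpace E] [BorelSpace E] (μ : Measure E) [μ.IsAddHaarMeasure]

/-- a normalised bump function -/
structure Bump (φ : E → ℝ) : Prop where
  cont : Continuous φ
  zero : ∀ y, 1 ≤ ‖y‖ → φ y = 0
  int : ∫ y, φ y ∂μ = 1

theorem exists_bump : ∃ φ : E → ℝ, Bump μ φ := by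
  have hc : Continuous fun y : E => max 0 (1 - ‖y‖) := by fun_prop
  have h0 : ∀ y : E, 1 ≤ ‖y‖ → max 0 (1 - ‖y‖) = 0 := fun y hy => max_eq_left (by linarith)
  have hs : HasCompactSupport fun y : E => max 0 (1 - ‖y‖) :=
    HasCompactSupport.intro (isCompact_closedBall 0 1) fun y hy =>
      h0 y (not_le.1 (mt mem_closedBall_zero_iff.2 hy)).le
  have hp := hc.integral_pos_of_hasCompactSupport_nonneg_nonzero (μ := μ) (x := 0) hs
    (fun y => le_max_left _ _) (by simp)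
  refine ⟨fun y => (∫ y : E, max 0 (1 - ‖y‖) ∂μ)⁻¹ * max 0 (1 - ‖y‖),
    continuous_const.mul hc, fun y hy => by rw [h0 y hy, mul_zero], ?_⟩
  rw [integral_const_mul, inv_mul_cancel₀ hp.ne']

/-- the degree integral -/
noncomputable def dI (φ : E → ℝ) (F : E → E) (V : Set E) (c : ℝ) : ℝ :=
  ∫ x in V, φ (c • F x) * (fderiv ℝ (fun y => c • F y) x).det ∂μ

/-- `d` is the degree of `F` at `Z` -/
def DegAt (φ : E → ℝ) (F : E → E) (Z : Set E) (d : ℝ) : Prop :=
  ∀ L V, Nb F Z L → IsOpen V → Z ⊆ V → V ⊆ L → ∀ᶠ c in atTop, dI μ φ F V c = d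

variable {μ}

/-- homotopy invariance of the integral -/
theorem key {φ : E → ℝ} (hφ : Bump μ φ) {L : Set (ℝ × E)} (hL : IsCompact L) {H : ℝ × E → E}
    (hH : ∀ p ∈ L, ContDiffAt ℝ 1 H p)
    (hb : ∀ p ∈ L, p ∉ interior L → p.1 ∈ Icc (0 : ℝ) 1 → 2 < ‖H p‖) :
    ∫ x in {x | ((0 : ℝ), x) ∈ interior L}, φ (H (0, x)) * (fderiv ℝ (fun y => H (0, y)) x).det ∂μ =
      ∫ x in {x | ((1 : ℝ), x) ∈ interior L}, φ (H (1, x)) * (fderiv ℝ (fun y => H (1, y)) x).det ∂μ := by
  have hO : IsOpen {p | ∀ᶠ q in 𝓝 p, ContDiffAt ℝ 1 H q} := isOpen_setOfPred_eventually_nhds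
  obtain ⟨K, U, ρ, hK, hKO, hU, hLU, -, hρ, hρ1, hρ0, -⟩ :=
    R174.PosDeg_cutoff hL hO fun p hp => (hH p hp).eventually (by simp)
  have hH' : ContDiff ℝ 1 fun p => ρ p • H p := by
    refine contDiff_iff_contDiffAt.2 fun p => ?_
    by_cases hp : p ∈ K
    · exact hρ.contDiffAt.smul (hKO hp).self_of_nhds
    · refine (contDiffAt_const (c := (0 : E))).congr_of_eventuallyEq ?_
      filter_upwards [hK.isClosed.isOpen_compl.mem_nhds hp] with q hq
      rw [hρ0 q hq, zero_smul]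
  set I : ℝ → ℝ := fun t => ∫ x in {x | (t, x) ∈ interior L},
    φ (ρ (t, x) • H (t, x)) * (fderiv ℝ (fun y => ρ (t, y) • H (t, y)) x).det ∂μ with hI
  have hlc : IsLocallyConstant fun t : Icc (0 : ℝ) 1 => I t := by
    rw [IsLocallyConstant.iff_eventually_eq]
    intro t₀
    have := R174.PosDeg_loc μ hL hH'.continuous
      (fun t => hH'.comp (contDiff_const.prodMk contDiff_id)) one_pos
      (fun p hp h1 h2 => by
        rw [hρ1 p (hLU hp), one_smul, mul_one]
        exact hb p hp h1 h2) hφ.cont hφ.zero t₀.2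
    filter_upwards [continuous_subtype_val.continuousAt.eventually this] with t ht
    exact ht t.2
  have : PreconnectedSpace (Icc (0 : ℝ) 1) := Subtype.preconnectedSpace isPreconnected_Icc
  have h01 : I 0 = I 1 :=
    hlc.apply_eq_of_preconnectedSpace ⟨0, left_mem_Icc.2 zero_le_one⟩
      ⟨1, right_mem_Icc.2 zero_le_one⟩
  have he : ∀ t : ℝ, I t = ∫ x in {x | (t, x) ∈ interior L},
      φ (H (t, x)) * (fderiv ℝ (fun y => H (t, y)) x).det ∂μ := fun t => by
    refine setIntegral_congr_fun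
      (isOpen_interior.preimage (Continuous.prodMk_right t)).measurableSet fun x hx => ?_
    have h1 : (fun y => ρ (t, y) • H (t, y)) =ᶠ[𝓝 x] fun y => H (t, y) := by
      filter_upwards [(hU.preimage (Continuous.prodMk_right t)).mem_nhds
        (hLU (interior_subset hx))] with y hy
      rw [hρ1 _ hy, one_smul]
    have h2 : ρ (t, x) • H (t, x) = H (t, x) := h1.eq_of_nhds
    simp only [h1.fderiv_eq, h2]
  rw [← he, ← he, h01]

theorem dI_shrink {φ : E → ℝ} (hφ : Bump μ φ) {F : E → E} {Z L V V' : Set E} (hL : Nb F Z L)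
    (hV : IsOpen V) (hV' : IsOpen V') (hZ : Z ⊆ V) (hVV' : V ⊆ V') (hV'L : V' ⊆ L) :
    ∀ᶠ c in atTop, dI μ φ F V' c = dI μ φ F V c := by
  filter_upwards [eventually_lt (F := F) (hL.cpt.diff hV)
    (fun x hx => (hL.diff x hx.1).continuousAt.continuousWithinAt)
    (fun x hx h => hx.2 (hZ (hL.zero x hx.1 h))) 1] with c hc
  refine setIntegral_eq_of_subset_of_forall_sdiff_eq_zero hV'.measurableSet hVV' fun x hx => ?_
  rw [hφ.zero _ (hc x ⟨hV'L hx.1, hx.2⟩).le, zero_mul]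

theorem Basic_const {φ : E → ℝ} (hφ : Bump μ φ) {F : E → E} {Z L : Set E} (hL : Nb F Z L) :
    ∃ d, ∀ᶠ c in atTop, dI μ φ F (interior L) c = d := by
  obtain ⟨c₀, hc₀⟩ := eventually_atTop.1 (eventually_lt (F := F) (hL.cpt.diff isOpen_interior)
    (fun x hx => (hL.diff x hx.1).continuousAt.continuousWithinAt)
    (fun x hx h => hx.2 (hL.sub (hL.zero x hx.1 h))) 2)
  refine ⟨dI μ φ F (interior L) c₀, ?_⟩
  filter_upwards [eventually_ge_atTop c₀] with c hc
  have e : ∀ t ∈ Icc (0 : ℝ) 1, ∀ x, (t, x) ∈ interior (Icc (-1 : ℝ) 2 ×ˢ L) ↔ x ∈ interior L := by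
    intro t ht x
    rw [interior_prod_eq, interior_Icc, mem_prod]
    exact and_iff_right ⟨by linarith [ht.1], by linarith [ht.2]⟩
  have h := key hφ (L := Icc (-1 : ℝ) 2 ×ˢ L) (isCompact_Icc.prod hL.cpt)
    (H := fun p => ((1 - p.1) * c + p.1 * c₀) • F p.2)
    (fun p hp => ContDiffAt.smul (by fun_prop) ((hL.diff _ hp.2).comp p contDiffAt_snd))
    (fun p hp h1 h2 => hc₀ _ (by nlinarith [h2.1, h2.2]) _ ⟨hp.2, fun h3 => h1 ((e _ h2 _).2 h3)⟩)
  simp only [e 0 (left_mem_Icc.2 zero_le_one), e 1 (right_mem_Icc.2 zero_le_one), sub_zero, one_mul,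
    zero_mul, add_zero, sub_self, zero_add, ofPred_mem_eq] at h
  exact h

theorem exists_degAt {φ : E → ℝ} (hφ : Bump μ φ) {F : E → E} {Z : Set E} (h : Iso F Z) :
    ∃ d, DegAt μ φ F Z d := by
  obtain ⟨L₀, hL₀, -⟩ := h.exists_nb isOpen_univ (subset_univ Z)
  obtain ⟨d, hd⟩ := Basic_const hφ hL₀
  refine ⟨d, fun L V hL hV hZ hVL => ?_⟩
  have hW : IsOpen (V ∩ interior L₀) := hV.inter isOpen_interior
  filter_upwards [hd, dI_shrink hφ hL hW hV (subset_inter hZ hL₀.sub) inter_subset_left hVL,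
    dI_shrink hφ hL₀ hW isOpen_interior (subset_inter hZ hL₀.sub) inter_subset_right
      interior_subset] with c h1 h2 h3
  rw [h2, ← h3, h1]

/-- one neighbourhood suffices to identify the degree -/
theorem DegAt.eq {φ : E → ℝ} {F : E → E} {Z L V : Set E} {d d' : ℝ} (h : DegAt μ φ F Z d) (hL : Nb F Z L)
    (hV : IsOpen V) (hZ : Z ⊆ V) (hVL : V ⊆ L) (h' : ∀ᶠ c in atTop, dI μ φ F V c = d') : d = d' := by
  obtain ⟨c, h1, h2⟩ := ((h L V hL hV hZ hVL).and h').exists
  exact h1.symm.trans h2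

end Crest.Agent.R251.Deg
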