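import Crest.Agent.R251.Deg.Basic

/-!
# Row 251, degree theory B: homotopy invariance and additivity

Recipes.
* `HIso.slice`: `R174.PosDeg_slice_compact`; compose with `x ↦ (s, x)`.
* `degAt_homotopy`: as in `Iso.exists_nb` take a compact `L ⊆ ℝ × E` with `W ⊆ interior L`, `H` `C¹` at all points of `L` and all
  zeros `p ∈ L` with `p.1 ∈ Icc 0 1` in `W`.  On the compact set `(L \ interior L) ∩ {p.1 ∈ Icc 0 1}` there is no zero, so
  (`eventually_lt`) `key` applies to `c • H` for large `c`.  For `t = 0, 1` the slice `L_t = {x | (t, x) ∈ L}` is `Nb` and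
  `V_t = {x | (t, x) ∈ interior L}` is open, `W_t ⊆ V_t ⊆ L_t` (so `V_t ⊆ interior L_t`, `interior_maximal`); use the definition of
  `DegAt` with `L_t, V_t` and pick one large `c`.
* `degAt_union`: `Z, Z'` are disjoint compact sets: disjoint open `O ⊇ Z`, `O' ⊇ Z'` (`SeparatedNhds.of_isCompact_isCompact`);
  `L, L'` from `Iso.exists_nb` inside `O, O'`.  `L ∪ L'` is `Nb` for `Z ∪ Z'`, `V = interior L ∪ interior L'`,
  `setIntegral_union` (the integrand is continuous on the compact sets `L`, `L'`: `ContDiffAt.continuousAt_fderiv` or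
  `ContDiffAt.fderiv_right`, `ContinuousLinearMap.continuous_det`, `ContinuousOn.integrableOn_compact`).
-/

set_option autoImplicit false

open MeasureTheory Set Filter Topology

namespace Crest.Agent.R251.Deg

variable {E : Type} [NormedAddCommGroup E] [NormedSpace ℝ E]

theorem HIso.slice {H : ℝ × E → E} {W : Set (ℝ × E)} (h : HIso H W) {s : ℝ} (hs : s ∈ Icc (0 : ℝ) 1) :
    Iso (fun x => H (s, x)) {x | (s, x) ∈ W} := by
  refine ⟨R174.PosDeg_slice_compact h.cpt h.cpt.isClosed s, fun x hx => h.zero _ hx,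
    fun x hx => (h.diff _ hx).comp x (contDiffAt_const.prodMk contDiffAt_id), fun x hx => ?_⟩
  filter_upwards [(Continuous.prodMk_right s).continuousAt.eventually (h.iso _ hx)] with y hy h0
  exact hy hs h0

theorem Iso.union {F : E → E} {Z Z' : Set E} (h : Iso F Z) (h' : Iso F Z') : Iso F (Z ∪ Z') := by
  refine ⟨h.cpt.union h'.cpt, fun x hx => hx.elim (h.zero x) (h'.zero x),
    fun x hx => hx.elim (h.diff x) (h'.diff x), fun x hx => ?_⟩
  rcases hx with hx | hx
  · exact (h.iso x hx).mono fun y hy h0 => Or.inl (hy h0)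
  · exact (h'.iso x hx).mono fun y hy h0 => Or.inr (hy h0)

variable [FiniteDimensional ℝ E] [MeasurableSpace E] [BorelSpace E] {μ : Measure E} [μ.IsAddHaarMeasure]

theorem degAt_homotopy {φ : E → ℝ} (hφ : Bump μ φ) {H : ℝ × E → E} {W : Set (ℝ × E)} (h : HIso H W) {d₀ d₁ : ℝ}
    (h₀ : DegAt μ φ (fun x => H (0, x)) {x | ((0 : ℝ), x) ∈ W} d₀)
    (h₁ : DegAt μ φ (fun x => H (1, x)) {x | ((1 : ℝ), x) ∈ W} d₁) : d₀ = d₁ := by
  have : ProperSpace E := FiniteDimensional.proper_real E
  obtain ⟨L, hL, hWL, hLO⟩ := exists_compact_between h.cpt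
    (isOpen_setOfPred_eventually_nhds (p := fun q : ℝ × E =>
      ContDiffAt ℝ 1 H q ∧ (q.1 ∈ Icc (0 : ℝ) 1 → H q = 0 → q ∈ W)))
    fun p hp => ((h.diff p hp).eventually (by simp)).and (h.iso p hp)
  have hL' : ∀ q ∈ L, ContDiffAt ℝ 1 H q ∧ (q.1 ∈ Icc (0 : ℝ) 1 → H q = 0 → q ∈ W) :=
    fun q hq => (hLO hq).self_of_nhds
  have hK := eventually_lt (F := H)
    ((hL.diff (isOpen_interior (s := L))).inter_right
      ((isClosed_Icc (a := (0 : ℝ)) (b := 1)).preimage continuous_fst))
    (fun p hp => (hL' p hp.1.1).1.continuousAt.continuousWithinAt)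
    (fun p hp h0 => hp.1.2 (hWL ((hL' p hp.1.1).2 hp.2 h0))) 2
  have hV : ∀ t : ℝ, IsOpen {x : E | (t, x) ∈ interior L} := fun t =>
    isOpen_interior.preimage (Continuous.prodMk_right t)
  have hN : ∀ t ∈ Icc (0 : ℝ) 1,
      Nb (fun x => H (t, x)) {x | (t, x) ∈ W} {x | (t, x) ∈ L} := fun t ht =>
    ⟨R174.PosDeg_slice_compact hL hL.isClosed t,
      fun x hx => interior_maximal (t := {x | (t, x) ∈ interior L})
        (fun y hy => interior_subset (s := L) hy) (hV t) (hWL hx),
      fun x hx => (hL' _ hx).1.comp x (contDiffAt_const.prodMk contDiffAt_id),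
      fun x hx h0 => (hL' _ hx).2 ht h0⟩
  obtain ⟨c, a0, a1, a2⟩ := ((h₀ _ _ (hN 0 (by simp)) (hV 0) (fun x hx => hWL hx)
    fun y hy => interior_subset (s := L) hy).and ((h₁ _ _ (hN 1 (by simp)) (hV 1)
      (fun x hx => hWL hx) fun y hy => interior_subset (s := L) hy).and hK)).exists
  rw [← a0, ← a1]
  exact key hφ hL (H := fun p => c • H p) (fun p hp => (hL' p hp).1.const_smul c)
    fun p hp h1 h2 => a2 p ⟨⟨hp, h1⟩, h2⟩

omit [FiniteDimensional ℝ E] in
theorem BasicB_int {φ : E → ℝ} (hφ : Bump μ φ) {F : E → E} {Z L : Set E} (hL : Nb F Z L) (c : ℝ) :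
    IntegrableOn (fun x => φ (c • F x) * (fderiv ℝ (fun y => c • F y) x).det) L μ := by
  refine ContinuousOn.integrableOn_compact hL.cpt fun x hx => ContinuousAt.continuousWithinAt ?_
  have h1 : ContDiffAt ℝ 1 (fun y => c • F y) x := (hL.diff x hx).const_smul c
  exact (hφ.cont.continuousAt.comp h1.continuousAt).mul
    (ContinuousLinearMap.continuous_det.continuousAt.comp (h1.continuousAt_fderiv one_ne_zero))

theorem degAt_union {φ : E → ℝ} (hφ : Bump μ φ) {F : E → E} {Z Z' : Set E} (h : Iso F Z) (h' : Iso F Z')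
    (hd : Disjoint Z Z') {d d' d'' : ℝ} (h₁ : DegAt μ φ F Z d) (h₂ : DegAt μ φ F Z' d')
    (h₃ : DegAt μ φ F (Z ∪ Z') d'') : d'' = d + d' := by
  obtain ⟨O, O', hO, hO', hZO, hZO', hOO⟩ := SeparatedNhds.of_isCompact_isCompact h.cpt h'.cpt hd
  obtain ⟨L, hL, hLO⟩ := h.exists_nb hO hZO
  obtain ⟨L', hL', hLO'⟩ := h'.exists_nb hO' hZO'
  have hs : Z ∪ Z' ⊆ interior L ∪ interior L' := union_subset_union hL.sub hL'.sub
  have hN : Nb F (Z ∪ Z') (L ∪ L') :=
    ⟨hL.cpt.union hL'.cpt, hs.trans (union_subset (interior_mono subset_union_left)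
      (interior_mono subset_union_right)), fun x hx => hx.elim (hL.diff x) (hL'.diff x),
      fun x hx h0 => hx.imp (fun hx => hL.zero x hx h0) fun hx => hL'.zero x hx h0⟩
  obtain ⟨c, a1, a2, a3⟩ := ((h₁ _ _ hL isOpen_interior hL.sub interior_subset).and
    ((h₂ _ _ hL' isOpen_interior hL'.sub interior_subset).and
      (h₃ _ _ hN (isOpen_interior.union isOpen_interior) hs
        (union_subset_union interior_subset interior_subset)))).exists
  rw [← a1, ← a2, ← a3]
  exact setIntegral_union (hOO.mono (interior_subset.trans hLO) (interior_subset.trans hLO'))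
    isOpen_interior.measurableSet ((BasicB_int hφ hL c).mono_set interior_subset)
    ((BasicB_int hφ hL' c).mono_set interior_subset)

end Crest.Agent.R251.Deg
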