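import Crest.Agent.R251.Deg.BasicB

/-!
# Row 251, degree theory C: regular zeros, the degree function

Recipes.
* `degAt_point`: `F` has a strict derivative `A = fderiv ℝ F x` at `x` which is an equivalence
  (`ContinuousLinearMap.toContinuousLinearEquivOfDetNeZero`); `HasStrictFDerivAt.toOpenPartialHomeomorph` gives an open `O ∋ x` on which `F`
  is injective with `F '' V` open for open `V ⊆ O`; shrink `O` so that `det (fderiv F ·)` has the sign of `det A` on it.  `L ⊆ O` from
  `Iso.exists_nb`, `V = interior L`.  `F '' V` contains a ball `ball 0 r`, so for large `c > 0` the image of `V` under `c • F`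
  contains the unit ball.  `integral_image_eq_integral_abs_det_fderiv_smul`: `1 = ∫ φ = ∫_{cF(V)} φ = ∫_V |det D(cF)| φ(cF)`
  (`setIntegral_eq_integral_of_forall_compl_eq_zero`), and `det D(cF) = c ^ n det DF` (`fderiv_const_smul`, `LinearMap.det_smul`) has
  the sign of `det A`.  Conclude with `DegAt.eq`.
* `deg_congr`: `deg_homotopy` for `H (s, x) = (1 - s) • F x + s • G x`, `W = Icc 0 1 ×ˢ Z`.
* `Iso.point`, `deg_regular`: by the inverse function theorem (`HasStrictFDerivAt.eventually_left_inverse` or injectivity of the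
  local homeomorphism) a regular zero `x` is an isolated zero: `∀ᶠ y in 𝓝 x, F y = 0 → y = x`.  So `Z` is compact and discrete, hence
  finite (`IsCompact.finite`, or `IsCompact.elim_nhds_subcover`).  Every finset of regular zeros is `Iso` (induction with `Iso.union`), and
  `deg F T = ∑ sign` by induction with `deg_union`, `deg_point`.
-/

set_option autoImplicit false

open MeasureTheory Set Filter Topology

namespace Crest.Agent.R251.Deg

variable {E : Type} [NormedAddCommGroup E] [NormedSpace ℝ E] [FiniteDimensional ℝ E]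

theorem BasicC_strict {F : E → E} {x : E} (hd : ContDiffAt ℝ 1 F x) (hdet : (fderiv ℝ F x).det ≠ 0) :
    HasStrictFDerivAt F
      (((fderiv ℝ F x).toContinuousLinearEquivOfDetNeZero hdet : E ≃L[ℝ] E) : E →L[ℝ] E) x := by
  rw [ContinuousLinearMap.coe_toContinuousLinearEquivOfDetNeZero]
  exact hd.hasStrictFDerivAt one_ne_zero

/-- local injectivity and openness at a regular point -/
theorem BasicC_local {F : E → E} {x : E} (hd : ContDiffAt ℝ 1 F x) (hdet : (fderiv ℝ F x).det ≠ 0) :
    ∃ O : Set E, IsOpen O ∧ x ∈ O ∧ InjOn F O ∧ ∀ V ∈ 𝓝 x, F '' V ∈ 𝓝 (F x) := by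
  have : CompleteSpace E := FiniteDimensional.complete ℝ E
  have hs := BasicC_strict hd hdet
  refine ⟨(hs.toOpenPartialHomeomorph F).source, (hs.toOpenPartialHomeomorph F).open_source,
    hs.mem_toOpenPartialHomeomorph_source, ?_, fun V hV => ?_⟩
  · have := (hs.toOpenPartialHomeomorph F).injOn
    rwa [hs.toOpenPartialHomeomorph_coe] at this
  · rw [← hs.map_nhds_eq_of_equiv]
    exact image_mem_map hV

theorem BasicC_det_smul (c : ℝ) (A : E →L[ℝ] E) : (c • A).det = c ^ Module.finrank ℝ E * A.det := by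
  have : ((c • A : E →L[ℝ] E) : E →ₗ[ℝ] E) = c • (A : E →ₗ[ℝ] E) := rfl
  rw [ContinuousLinearMap.det, this, LinearMap.det_smul]

theorem BasicC_abs {a b : ℝ} (h : 0 < a * b) : |a| = (SignType.sign b : ℝ) * a := by
  rcases lt_trichotomy b 0 with hb | hb | hb
  · have ha : a < 0 := by nlinarith
    rw [sign_neg hb, abs_of_neg ha]; simp
  · rw [hb] at h; simp at h
  · have ha : 0 < a := by nlinarith
    rw [sign_pos hb, abs_of_pos ha]; simp

theorem BasicC_sign_sq {b : ℝ} (h : b ≠ 0) : (SignType.sign b : ℝ) * SignType.sign b = 1 := by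
  rcases lt_or_gt_of_ne h with hb | hb
  · rw [sign_neg hb]; simp
  · rw [sign_pos hb]; simp

theorem degAt_point [MeasurableSpace E] [BorelSpace E] {μ : Measure E} [μ.IsAddHaarMeasure] {φ : E → ℝ}
    (hφ : Bump μ φ) {F : E → E} {x : E} (h : Iso F {x}) (hdet : (fderiv ℝ F x).det ≠ 0) {d : ℝ}
    (hd : DegAt μ φ F {x} d) : d = SignType.sign (fderiv ℝ F x).det := by
  have hx : ContDiffAt ℝ 1 F x := h.diff x rfl
  have hx0 : F x = 0 := h.zero x rfl
  obtain ⟨O, hO, hxO, hinj, hopen⟩ := BasicC_local hx hdet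
  have hcont : ContinuousAt (fun y => (fderiv ℝ F y).det * (fderiv ℝ F x).det) x :=
    (ContinuousLinearMap.continuous_det.continuousAt.comp
      (hx.continuousAt_fderiv one_ne_zero)).mul continuousAt_const
  have hpos : ∀ᶠ y in 𝓝 x, 0 < (fderiv ℝ F y).det * (fderiv ℝ F x).det :=
    hcont.eventually (lt_mem_nhds (mul_self_pos.2 hdet))
  obtain ⟨O', hO'sub, hO', hxO'⟩ := mem_nhds_iff.1 hpos
  obtain ⟨L, hL, hLO⟩ := h.exists_nb (hO.inter hO') (singleton_subset_iff.2 ⟨hxO, hxO'⟩)
  have hxV : x ∈ interior L := hL.sub rfl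
  have hVn : F '' interior L ∈ 𝓝 (0 : E) := by
    rw [← hx0]; exact hopen _ (isOpen_interior.mem_nhds hxV)
  obtain ⟨r, hr, hball⟩ := Metric.mem_nhds_iff.1 hVn
  refine hd.eq hL isOpen_interior hL.sub interior_subset ?_
  filter_upwards [eventually_gt_atTop r⁻¹] with c hc
  have hc0 : 0 < c := (inv_pos.2 hr).trans hc
  have hdiff : ∀ y ∈ interior L, DifferentiableAt ℝ F y := fun y hy =>
    (hL.diff y (interior_subset hy)).differentiableAt one_ne_zero
  have hder : ∀ y ∈ interior L, HasFDerivAt (fun z => c • F z) (c • fderiv ℝ F y) y := fun y hy =>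
    (hdiff y hy).hasFDerivAt.const_smul c
  have hinj' : InjOn (fun z => c • F z) (interior L) := fun y hy z hz hyz =>
    hinj (hLO (interior_subset hy)).1 (hLO (interior_subset hz)).1 (smul_right_injective E hc0.ne' hyz)
  have hcv := integral_image_eq_integral_abs_det_fderiv_smul μ isOpen_interior.measurableSet
    (fun y hy => (hder y hy).hasFDerivWithinAt) hinj' φ
  have h1 : ∫ y in (fun z => c • F z) '' interior L, φ y ∂μ = 1 := by
    rw [← hφ.int]
    refine setIntegral_eq_integral_of_forall_compl_eq_zero fun y hy => hφ.zero y ?_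
    by_contra hlt
    push Not at hlt
    have hmem : c⁻¹ • y ∈ Metric.ball (0 : E) r := by
      rw [mem_ball_zero_iff, norm_smul, Real.norm_of_nonneg (inv_pos.2 hc0).le]
      have h2 : c⁻¹ < r := inv_lt_of_inv_lt₀ hr hc
      have h3 : 0 < c⁻¹ := inv_pos.2 hc0
      nlinarith [norm_nonneg y]
    obtain ⟨v, hv, hvy⟩ := hball hmem
    exact hy ⟨v, hv, by simp only [hvy, smul_smul, mul_inv_cancel₀ hc0.ne', one_smul]⟩
  have h2 : ∫ y in interior L, |(c • fderiv ℝ F y).det| • φ (c • F y) ∂μ =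
      (SignType.sign (fderiv ℝ F x).det : ℝ) * dI μ φ F (interior L) c := by
    rw [dI, ← integral_const_mul]
    refine setIntegral_congr_fun isOpen_interior.measurableSet fun y hy => ?_
    have hp : 0 < (c • fderiv ℝ F y).det * (fderiv ℝ F x).det := by
      rw [BasicC_det_smul, mul_assoc]
      exact mul_pos (pow_pos hc0 _) (hO'sub (hLO (interior_subset hy)).2)
    rw [(hder y hy).fderiv, BasicC_abs hp, smul_eq_mul]
    ring
  rw [h1, h2] at hcv
  calc dI μ φ F (interior L) c
      = (SignType.sign (fderiv ℝ F x).det * SignType.sign (fderiv ℝ F x).det : ℝ) *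
          dI μ φ F (interior L) c := by rw [BasicC_sign_sq hdet, one_mul]
    _ = SignType.sign (fderiv ℝ F x).det := by rw [mul_assoc, ← hcv, mul_one]

/-- the axioms of the degree -/
structure IsDeg (deg : (E → E) → Set E → ℝ) : Prop where
  homotopy : ∀ (H : ℝ × E → E) (W : Set (ℝ × E)), HIso H W →
    deg (fun x => H (0, x)) {x | ((0 : ℝ), x) ∈ W} = deg (fun x => H (1, x)) {x | ((1 : ℝ), x) ∈ W}
  union : ∀ F Z Z', Iso F Z → Iso F Z' → Disjoint Z Z' → deg F (Z ∪ Z') = deg F Z + deg F Z'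
  point : ∀ F x, Iso F {x} → (fderiv ℝ F x).det ≠ 0 → deg F {x} = SignType.sign (fderiv ℝ F x).det

variable (E) in
theorem exists_deg : ∃ deg : (E → E) → Set E → ℝ, IsDeg deg := by
  classical
  borelize E
  obtain ⟨φ, hφ⟩ := exists_bump (Measure.addHaar : Measure E)
  let deg : (E → E) → Set E → ℝ := fun F Z => if h : Iso F Z then (exists_degAt hφ h).choose else 0
  have hdeg : ∀ F Z, Iso F Z → DegAt Measure.addHaar φ F Z (deg F Z) := fun F Z h => by
    simp only [deg, dif_pos h]
    exact (exists_degAt hφ h).choose_spec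
  exact ⟨deg, fun H W h => degAt_homotopy hφ h (hdeg _ _ (h.slice (left_mem_Icc.2 zero_le_one)))
      (hdeg _ _ (h.slice (right_mem_Icc.2 zero_le_one))),
    fun F Z Z' h h' hd => degAt_union hφ h h' hd (hdeg _ _ h) (hdeg _ _ h') (hdeg _ _ (h.union h')),
    fun F x h hd => degAt_point hφ h hd (hdeg _ _ h)⟩

/-- the degree of `F` at an isolated compact set of zeros -/
noncomputable def deg : (E → E) → Set E → ℝ := (exists_deg E).choose

theorem deg_homotopy {H : ℝ × E → E} {W : Set (ℝ × E)} (h : HIso H W) :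
    deg (fun x => H (0, x)) {x | ((0 : ℝ), x) ∈ W} = deg (fun x => H (1, x)) {x | ((1 : ℝ), x) ∈ W} :=
  (exists_deg E).choose_spec.homotopy H W h

theorem deg_union {F : E → E} {Z Z' : Set E} (h : Iso F Z) (h' : Iso F Z') (hd : Disjoint Z Z') :
    deg F (Z ∪ Z') = deg F Z + deg F Z' :=
  (exists_deg E).choose_spec.union F Z Z' h h' hd

theorem deg_point {F : E → E} {x : E} (h : Iso F {x}) (hd : (fderiv ℝ F x).det ≠ 0) :
    deg F {x} = SignType.sign (fderiv ℝ F x).det :=
  (exists_deg E).choose_spec.point F x h hd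

omit [FiniteDimensional ℝ E] in
theorem Iso.empty (F : E → E) : Iso F ∅ :=
  ⟨isCompact_empty, fun _ h => h.elim, fun _ h => h.elim, fun _ h => h.elim⟩

theorem deg_empty (F : E → E) : deg F ∅ = 0 := by
  have := deg_union (Iso.empty F) (Iso.empty F) (disjoint_empty _)
  rw [union_self] at this
  linarith

omit [FiniteDimensional ℝ E] in
theorem Iso.congr {F G : E → E} {Z : Set E} (h : Iso F Z) (hFG : ∀ x ∈ Z, F =ᶠ[𝓝 x] G) : Iso G Z := by
  refine ⟨h.cpt, fun x hx => ?_, fun x hx => (h.diff x hx).congr_of_eventuallyEq (hFG x hx).symm,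
    fun x hx => ?_⟩
  · rw [← (hFG x hx).eq_of_nhds]; exact h.zero x hx
  · filter_upwards [h.iso x hx, hFG x hx] with y hy hy' h0
    exact hy (hy'.trans h0)

theorem deg_congr {F G : E → E} {Z : Set E} (h : Iso F Z) (hFG : ∀ x ∈ Z, F =ᶠ[𝓝 x] G) :
    deg F Z = deg G Z := by
  have h' := h.congr hFG
  have hH : HIso (fun p : ℝ × E => (1 - p.1) • F p.2 + p.1 • G p.2) (Icc (0 : ℝ) 1 ×ˢ Z) := by
    refine ⟨isCompact_Icc.prod h.cpt, fun p hp => hp.1, fun p hp => ?_, fun p hp => ?_, fun p hp => ?_⟩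
    · simp only [h.zero _ hp.2, h'.zero _ hp.2, smul_zero, add_zero]
    · exact ((contDiffAt_const.sub contDiffAt_fst).smul ((h.diff _ hp.2).comp p contDiffAt_snd)).add
        (contDiffAt_fst.smul ((h'.diff _ hp.2).comp p contDiffAt_snd))
    · have e1 := continuous_snd.continuousAt.eventually (h.iso _ hp.2)
      have e2 := continuous_snd.continuousAt.eventually (hFG _ hp.2)
      filter_upwards [e1, e2] with q hq1 hq2 hq h0
      refine ⟨hq, hq1 ?_⟩
      rw [← hq2, ← add_smul, sub_add_cancel, one_smul] at h0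
      exact h0
  have := deg_homotopy hH
  simpa using this

theorem Iso.point {F : E → E} {x : E} (h0 : F x = 0) (hd : ContDiffAt ℝ 1 F x)
    (hdet : (fderiv ℝ F x).det ≠ 0) : Iso F {x} := by
  obtain ⟨O, hO, hxO, hinj, -⟩ := BasicC_local hd hdet
  refine ⟨isCompact_singleton, fun y hy => ?_, fun y hy => ?_, fun y hy => ?_⟩
  · rw [mem_singleton_iff.1 hy]; exact h0
  · rw [mem_singleton_iff.1 hy]; exact hd
  · rw [mem_singleton_iff.1 hy]
    filter_upwards [hO.mem_nhds hxO] with z hz hz0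
    exact hinj hz hxO (hz0.trans h0.symm)

theorem BasicC_finset {F : E → E} (T : Finset E) (h0 : ∀ x ∈ T, F x = 0) (hd : ∀ x ∈ T, ContDiffAt ℝ 1 F x)
    (hdet : ∀ x ∈ T, (fderiv ℝ F x).det ≠ 0) :
    Iso F T ∧ deg F T = ∑ x ∈ T, (SignType.sign (fderiv ℝ F x).det : ℝ) := by
  classical
  induction T using Finset.induction_on with
  | empty => exact ⟨by simpa using Iso.empty F, by simpa using deg_empty F⟩
  | insert a T ha ih =>
    obtain ⟨i1, i2⟩ := ih (fun x hx => h0 x (Finset.mem_insert_of_mem hx))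
      (fun x hx => hd x (Finset.mem_insert_of_mem hx)) (fun x hx => hdet x (Finset.mem_insert_of_mem hx))
    have hp : Iso F {a} := Iso.point (h0 a (Finset.mem_insert_self a T)) (hd a (Finset.mem_insert_self a T))
      (hdet a (Finset.mem_insert_self a T))
    have e : ((insert a T : Finset E) : Set E) = {a} ∪ (T : Set E) := by
      rw [Finset.coe_insert, insert_eq]
    rw [e, Finset.sum_insert ha]
    refine ⟨hp.union i1, ?_⟩
    rw [deg_union hp i1 (disjoint_singleton_left.2 ha), i2, deg_point hp (hdet a (Finset.mem_insert_self a T))]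

theorem deg_regular {F : E → E} {Z : Set E} (h : Iso F Z) (hdet : ∀ x ∈ Z, (fderiv ℝ F x).det ≠ 0) :
    ∃ T : Finset E, (∀ x, x ∈ T ↔ x ∈ Z) ∧
      deg F Z = ∑ x ∈ T, (SignType.sign (fderiv ℝ F x).det : ℝ) := by
  obtain ⟨T, hT, hZ⟩ := h.cpt.elim_nhds_subcover (fun x => {y | F y = 0 → y ∈ ({x} : Set E)})
    fun x hx => (Iso.point (h.zero x hx) (h.diff x hx) (hdet x hx)).iso x rfl
  have hTZ : ∀ x, x ∈ T ↔ x ∈ Z := fun x => ⟨hT x, fun hx => by
    obtain ⟨y, hy, hxy⟩ := mem_iUnion₂.1 (hZ hx)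
    rw [mem_singleton_iff.1 (hxy (h.zero x hx))]
    exact hy⟩
  refine ⟨T, hTZ, ?_⟩
  have e : Z = (T : Set E) := Set.ext fun x => (hTZ x).symm
  have := (BasicC_finset T (fun x hx => h.zero x (hT x hx)) (fun x hx => h.diff x (hT x hx))
    (fun x hx => hdet x (hT x hx))).2
  rw [← this, e]

end Crest.Agent.R251.Deg
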