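import Crest.Agent.R251.Deg.Pert

/-!
# Row 251: the count of a good system is a homotopy invariant

Recipes.
* `FF_eq_zero`: real and imaginary parts of each component (`normSq q = 1 ↔ ‖q‖ = 1`).
* `hiso_FF`: `C = Icc 0 1 ×ˢ {y | UnitT y}` is compact (`isCompact_univ_pi` of spheres, or closed and bounded).  The set `W` equals
  `{p ∈ C | 0 ≤ t.imI, t.imJ = 0, t.imK = 0, 0 ≤ u.imJ, u.imK = 0, ∀ j, (H j).im = 0 ∧ (H j).re ≤ 0}`: `re < 0` since `H ≠ 0`, and if `t.imI = 0` or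
  `u.imJ = 0` then `t`, `u` commute, against `Good`.  This set is closed in `C` (`ContinuousOn.preimage_isClosed_of_isClosed`, the `H j` are
  continuous at all points of `C`).  Isolation: the strict inequalities persist near a point of `W`, `FF_eq_zero`.
* `cnt_split`: `FF f =ᶠ FF h` near points of `Zs f` (`Filter.eventually_all`), `Iso.congr`, `deg_congr`, `deg_union`.
-/

set_option autoImplicit false
set_option linter.unusedSectionVars false

open Set Filter Topology Quaternion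

namespace Crest.Agent.R251.Deg

variable {ι : Type} [Fintype ι] [DecidableEq ι]

theorem isCompact_unitT : IsCompact {y : Tup ι | UnitT y} := by
  have h := isCompact_univ_pi fun _ : Gn ι => isCompact_sphere (0 : ℍ[ℝ]) 1
  convert h using 1
  ext y
  simp [UnitT]

theorem FF_eq_zero {f : Sys ι} {y : Tup ι} : FF f y = 0 ↔
    UnitT y ∧ (y none).imJ = 0 ∧ (y none).imK = 0 ∧ (y (some none)).imK = 0 ∧ ∀ j, (f j y).im = 0 := by
  have e : ∀ q : ℍ[ℝ], normSq q - 1 = 0 ↔ ‖q‖ = 1 := by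
    intro q
    rw [normSq_eq_norm_mul_self, sub_eq_zero]
    constructor
    · intro h
      nlinarith [norm_nonneg q]
    · intro h
      rw [h, mul_one]
  constructor
  · intro h
    have h0 := congrFun h none
    refine ⟨fun x => (e _).1 ?_, ?_, ?_, ?_, fun j => ?_⟩
    · have := congrArg QuaternionAlgebra.re (congrFun h x)
      cases x <;> simpa [FF, gf] using this
    · simpa [FF, gf] using congrArg QuaternionAlgebra.imI h0
    · simpa [FF, gf] using congrArg QuaternionAlgebra.imJ h0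
    · simpa [FF, gf] using congrArg QuaternionAlgebra.imK h0
    · have := congrArg Quaternion.im (congrFun h (some j))
      simpa [FF] using this
  · rintro ⟨h0, h1, h2, h3, h4⟩
    funext x
    unfold FF
    rw [(e _).2 (h0 x)]
    cases x with
    | none => ext <;> simp [gf, h1, h2, h3]
    | some j => simp [h4 j]

/-- the gauge fixing equations are linear -/
def Cnt_gfL : Tup ι →ₗ[ℝ] ℍ[ℝ] where
  toFun := gf
  map_add' y z := by ext <;> simp [gf]
  map_smul' c y := by ext <;> simp [gf]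

theorem Cnt_contDiff_gf : ContDiff ℝ 1 (gf : Tup ι → ℍ[ℝ]) :=
  (LinearMap.toContinuousLinearMap (Cnt_gfL (ι := ι))).contDiff

theorem Cnt_contDiff_nsq : ContDiff ℝ 1 fun q : ℍ[ℝ] => ((normSq q - 1 : ℝ) : ℍ[ℝ]) := by
  have e : (fun q : ℍ[ℝ] => ((normSq q - 1 : ℝ) : ℍ[ℝ])) = fun q => (‖q‖ ^ 2 - 1) • (1 : ℍ[ℝ]) := by
    funext q
    rw [normSq_eq_norm_mul_self, ← pow_two]
    generalize ‖q‖ ^ 2 - 1 = r
    ext <;> simp
  rw [e]
  exact ((contDiff_norm_sq ℝ).sub contDiff_const).smul contDiff_const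

theorem Cnt_comm {a b : ℍ[ℝ]} (h1 : a.imJ = 0) (h2 : a.imK = 0) (h3 : b.imK = 0)
    (h : a.imI = 0 ∨ b.imJ = 0) : a * b = b * a := by
  rcases h with h | h <;> ext <;> simp [h, h1, h2, h3] <;> ring



theorem hiso_FF {H : ℝ → Sys ι} (hH : ∀ j, HSM fun s => H s j) (hg : ∀ s ∈ Icc (0 : ℝ) 1, Good (H s)) :
    HIso (fun p : ℝ × Tup ι => FF (H p.1) p.2) {p | p.1 ∈ Icc (0 : ℝ) 1 ∧ p.2 ∈ Zs (H p.1)} := by
  have hC : IsCompact (Icc (0 : ℝ) 1 ×ˢ {y : Tup ι | UnitT y}) := isCompact_Icc.prod isCompact_unitT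
  have hc : ∀ j, ContinuousOn (fun p : ℝ × Tup ι => H p.1 j p.2)
      (Icc (0 : ℝ) 1 ×ˢ {y : Tup ι | UnitT y}) := fun j p hp =>
    ((hH j).diff p.1 hp.1 p.2 hp.2).continuousAt.continuousWithinAt
  have ct : ∀ x : Gn ι, Continuous fun p : ℝ × Tup ι => p.2 x := fun x =>
    (continuous_apply x).comp continuous_snd
  refine ⟨?_, fun p hp => hp.1, fun p hp => ?_, fun p hp => ?_, fun p hp => ?_⟩
  · have hF : ContinuousOn (fun p : ℝ × Tup ι => ((p.2 none, p.2 (some none)), fun j => H p.1 j p.2))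
        (Icc (0 : ℝ) 1 ×ˢ {y : Tup ι | UnitT y}) :=
      ((ct _).prodMk (ct _)).continuousOn.prodMk (continuousOn_pi.2 hc)
    have hA : IsClosed {z : (ℍ[ℝ] × ℍ[ℝ]) × (Option ι → ℍ[ℝ]) | (0 ≤ z.1.1.imI ∧ z.1.1.imJ = 0 ∧
        z.1.1.imK = 0 ∧ 0 ≤ z.1.2.imJ ∧ z.1.2.imK = 0) ∧ ∀ j, (z.2 j).im = 0 ∧ (z.2 j).re ≤ 0} := by
      refine IsClosed.and (IsClosed.and ?_ (IsClosed.and ?_ (IsClosed.and ?_ (IsClosed.and ?_ ?_))))
        ?_
      · exact isClosed_le continuous_const (continuous_imI.comp continuous_fst.fst)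
      · exact isClosed_eq (continuous_imJ.comp continuous_fst.fst) continuous_const
      · exact isClosed_eq (continuous_imK.comp continuous_fst.fst) continuous_const
      · exact isClosed_le continuous_const (continuous_imJ.comp continuous_fst.snd)
      · exact isClosed_eq (continuous_imK.comp continuous_fst.snd) continuous_const
      · rw [ofPred_forall]
        exact isClosed_iInter fun j => (isClosed_eq (continuous_im.comp
          ((continuous_apply j).comp continuous_snd)) continuous_const).and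
          (isClosed_le (continuous_re.comp ((continuous_apply j).comp continuous_snd))
            continuous_const)
    have h1 := hC.of_isClosed_subset (hF.preimage_isClosed_of_isClosed hC.isClosed hA)
      inter_subset_left
    convert h1 using 1
    ext ⟨s, y⟩
    constructor
    · rintro ⟨hs, hy, ⟨a1, a2, a3, a4, a5⟩, hn⟩
      exact ⟨⟨hs, hy⟩, ⟨a1.le, a2, a3, a4.le, a5⟩, fun j => ⟨(hn j).1, (hn j).2.le⟩⟩
    · rintro ⟨⟨hs, hy⟩, ⟨a1, a2, a3, a4, a5⟩, hn⟩
      have hN : ∀ j, Ng (H s j y) := fun j => ⟨(hn j).1, lt_of_le_of_ne (hn j).2 fun h0 =>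
        ((hH j).sm s hs).ne y hy (by
          have h2 : (H s j y).re = 0 := h0
          have h3 : (H s j y).im = 0 := (hn j).1
          rw [← re_add_im (H s j y), h3, h2]
          simp)⟩
      have hne := hg s hs y hy hN
      exact ⟨hs, hy, ⟨lt_of_le_of_ne a1 fun h0 => hne (Cnt_comm a2 a3 a5 (Or.inl h0.symm)), a2, a3,
        lt_of_le_of_ne a4 fun h0 => hne (Cnt_comm a2 a3 a5 (Or.inr h0.symm)), a5⟩, hN⟩
  · obtain ⟨-, hy, ⟨-, a2, a3, -, a5⟩, hn⟩ := hp
    exact FF_eq_zero.2 ⟨hy, a2, a3, a5, fun j => (hn j).1⟩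
  · refine contDiffAt_pi.2 fun x => ?_
    have h1 : ContDiffAt ℝ 1 (fun p : ℝ × Tup ι => ((normSq (p.2 x) - 1 : ℝ) : ℍ[ℝ])) p :=
      (Cnt_contDiff_nsq.comp ((contDiff_apply ℝ ℍ[ℝ] x).comp contDiff_snd)).contDiffAt
    cases x with
    | none => exact h1.add (Cnt_contDiff_gf.comp contDiff_snd).contDiffAt
    | some j => exact h1.add (contDiff_im.contDiffAt.comp p ((hH j).diff p.1 hp.1 p.2 hp.2.1))
  · obtain ⟨hs, hy, ⟨a1, -, -, a4, -⟩, hn⟩ := hp
    have e1 : ∀ᶠ q : ℝ × Tup ι in 𝓝 p, 0 < (q.2 none).imI :=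
      (continuous_imI.comp (ct _)).continuousAt.eventually (lt_mem_nhds a1)
    have e2 : ∀ᶠ q : ℝ × Tup ι in 𝓝 p, 0 < (q.2 (some none)).imJ :=
      (continuous_imJ.comp (ct _)).continuousAt.eventually (lt_mem_nhds a4)
    have e3 : ∀ᶠ q : ℝ × Tup ι in 𝓝 p, ∀ j, (H q.1 j q.2).re < 0 := eventually_all.2 fun j =>
      (continuous_re.continuousAt.comp
        ((hH j).diff p.1 hs p.2 hy).continuousAt).eventually (gt_mem_nhds (hn j).2)
    filter_upwards [e1, e2, e3] with q b1 b2 b3 hq h0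
    obtain ⟨c0, c1, c2, c3, c4⟩ := FF_eq_zero.1 h0
    exact ⟨hq, c0, ⟨b1, c1, c2, b2, c3⟩, fun j => ⟨c4 j, b3 j⟩⟩

theorem iso_FF {f : Sys ι} (hf : ∀ j, SM (f j)) (hg : Good f) : Iso (FF f) (Zs f) := by
  have := (hiso_FF (H := fun _ => f) (fun j => (hf j).hsm) fun _ _ => hg).slice (left_mem_Icc.2 zero_le_one)
  simpa using this

theorem cnt_homotopy {H : ℝ → Sys ι} (hH : ∀ j, HSM fun s => H s j) (hg : ∀ s ∈ Icc (0 : ℝ) 1, Good (H s)) :
    cnt (H 0) = cnt (H 1) := by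
  have := deg_homotopy (hiso_FF hH hg)
  simpa [cnt] using this

/-- additivity of the count when the solution set splits -/
theorem cnt_split {f g h : Sys ι} (hf : ∀ j, SM (f j)) (hg : ∀ j, SM (g j)) (gf : Good f) (gg : Good g)
    (hZ : Zs h = Zs f ∪ Zs g) (hd : Disjoint (Zs f) (Zs g))
    (h₁ : ∀ y ∈ Zs f, ∀ j, f j =ᶠ[𝓝 y] h j) (h₂ : ∀ y ∈ Zs g, ∀ j, g j =ᶠ[𝓝 y] h j) :
    cnt h = cnt f + cnt g := by
  have key : ∀ {f : Sys ι} {y : Tup ι}, (∀ j, f j =ᶠ[𝓝 y] h j) → FF f =ᶠ[𝓝 y] FF h := by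
    intro f y hy
    filter_upwards [eventually_all.2 hy] with z hz
    funext x
    cases x with
    | none => rfl
    | some j => simp only [FF, hz j]
  have i1 := iso_FF hf gf
  have i2 := iso_FF hg gg
  unfold cnt
  rw [hZ, deg_union (i1.congr fun y hy => key (h₁ y hy)) (i2.congr fun y hy => key (h₂ y hy)) hd,
    deg_congr i1 fun y hy => key (h₁ y hy), deg_congr i2 fun y hy => key (h₂ y hy)]

end Crest.Agent.R251.Deg
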