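import Crest.Agent.R251.VanDefs
import Crest.Agent.R251.Deg.BasicC

/-!
# Row 251: equivariant systems of equations on tuples of unit quaternions

A *slot map* is a conjugation equivariant, nowhere vanishing `C¹` map from tuples of unit quaternions to `ℍ`; it "vanishes" at `y`
when its value is a negative real.  A system has one slot less than there are generators.  `cnt f` is the degree count of the
solutions in the slice, `NN f` is the count of a generic multiplicative perturbation.
-/

set_option autoImplicit false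
set_option linter.unusedSectionVars false

open Set Filter Topology Quaternion

namespace Crest.Agent.R251.Deg

open Crest.Agent.Lib.GR

/-- tuples of quaternions -/
abbrev Tup (ι : Type) : Type := Gn ι → ℍ[ℝ]

/-- systems of equations -/
abbrev Sys (ι : Type) : Type := Option ι → Tup ι → ℍ[ℝ]

/-- index set of the perturbations -/
abbrev KK (ι : Type) : Type := Gn ι ⊕ Gn ι × Gn ι

/-- negative reals -/
def Ng (q : ℍ[ℝ]) : Prop := q.im = 0 ∧ q.re < 0

variable {ι : Type} [Fintype ι] [DecidableEq ι]

/-- slot maps -/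
structure SM (f : Tup ι → ℍ[ℝ]) : Prop where
  diff : ∀ y, UnitT y → ContDiffAt ℝ 1 f y
  equi : ∀ y (q : ℍ[ℝ]), UnitT y → ‖q‖ = 1 → f (cj q y) = q * f y * q⁻¹
  ne : ∀ y, UnitT y → f y ≠ 0

/-- homotopies of slot maps -/
structure HSM (h : ℝ → Tup ι → ℍ[ℝ]) : Prop where
  diff : ∀ s ∈ Icc (0 : ℝ) 1, ∀ y, UnitT y → ContDiffAt ℝ 1 (fun p : ℝ × Tup ι => h p.1 p.2) (s, y)
  sm : ∀ s ∈ Icc (0 : ℝ) 1, SM (h s)

/-- abelian tuples -/
def Abel (y : Tup ι) : Prop := ∀ x x', y x * y x' = y x' * y x

/-- admissible systems: the first slot has no negative real part on abelian tuples -/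
structure Adm (f : Sys ι) : Prop where
  sm : ∀ j, SM (f j)
  ab : ∀ y, UnitT y → Abel y → 0 ≤ (f none y).re

/-- homotopies of admissible systems -/
structure HAdm (H : ℝ → Sys ι) : Prop where
  hsm : ∀ j, HSM fun s => H s j
  ab : ∀ s ∈ Icc (0 : ℝ) 1, ∀ y, UnitT y → Abel y → 0 ≤ (H s none y).re

/-- equivariant imaginary vector fields -/
noncomputable def ee (y : Tup ι) : KK ι → ℍ[ℝ]
  | .inl x => (y x).im
  | .inr p => (y p.1 * y p.2).im

/-- the perturbation with coefficients `l` -/
noncomputable def pert (l : KK ι → ℝ) (y : Tup ι) : ℍ[ℝ] := ∑ k, l k • ee y k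

/-- the perturbed system -/
noncomputable def pf (f : Sys ι) (l : Option ι → KK ι → ℝ) : Sys ι := fun j y => f j y * (1 + pert (l j) y)

/-- the gauge fixing equations -/
def gf (y : Tup ι) : ℍ[ℝ] := ⟨0, (y none).imJ, (y none).imK, (y (some none)).imK⟩

/-- all equations as one self map of the space of tuples -/
noncomputable def FF (f : Sys ι) (y : Tup ι) : Tup ι := fun x =>
  ((normSq (y x) - 1 : ℝ) : ℍ[ℝ]) + match x with
    | none => gf y
    | some j => (f j y).im

/-- the solutions in the slice -/
def Zs (f : Sys ι) : Set (Tup ι) := {y | UnitT y ∧ Slice y ∧ ∀ j, Ng (f j y)}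

/-- the signed count of the solutions in the slice -/
noncomputable def cnt (f : Sys ι) : ℝ := deg (FF f) (Zs f)

/-- no solution with commuting `t`, `u` -/
def Good (f : Sys ι) : Prop :=
  ∀ y, UnitT y → (∀ j, Ng (f j y)) → y none * y (some none) ≠ y (some none) * y none

open Classical in
/-- the count of a good perturbation -/
noncomputable def NN (f : Sys ι) : ℝ := if h : ∃ l, Good (pf f l) then cnt (pf f h.choose) else 0

theorem HAdm.adm {H : ℝ → Sys ι} (h : HAdm H) {s : ℝ} (hs : s ∈ Icc (0 : ℝ) 1) : Adm (H s) :=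
  ⟨fun j => (h.hsm j).sm s hs, h.ab s hs⟩

theorem SM.hsm {f : Tup ι → ℍ[ℝ]} (h : SM f) : HSM fun _ => f :=
  ⟨fun _ _ y hy => (h.diff y hy).comp _ contDiffAt_snd, fun _ _ => h⟩

theorem Adm.hadm {f : Sys ι} (h : Adm f) : HAdm fun _ => f :=
  ⟨fun j => (h.sm j).hsm, fun _ _ => h.ab⟩

theorem Adm.update {f : Sys ι} (h : Adm f) (a : ι) {g : Tup ι → ℍ[ℝ]} (hg : SM g) :
    Adm (Function.update f (some a) g) := by
  refine ⟨fun j => ?_, fun y hy ha => ?_⟩
  · by_cases hj : j = some a
    · rw [hj, Function.update_self]; exact hg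
    · rw [Function.update_of_ne hj]; exact h.sm j
  · rw [Function.update_of_ne (by simp)]; exact h.ab y hy ha

theorem Adm.hupdate {f : Sys ι} (h : Adm f) (a : ι) {g : ℝ → Tup ι → ℍ[ℝ]} (hg : HSM g) :
    HAdm fun s => Function.update f (some a) (g s) := by
  refine ⟨fun j => ?_, fun s _ y hy ha => ?_⟩
  · by_cases hj : j = some a
    · simp only [hj, Function.update_self]; exact hg
    · simp only [Function.update_of_ne hj]; exact (h.sm j).hsm
  · rw [Function.update_of_ne (by simp)]; exact h.ab y hy ha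

end Crest.Agent.R251.Deg
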