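import Crest.Agent.R251.Deg.Pert
import Crest.Agent.R251.Deg.Sard

/-!
# Row 251: overdetermined systems have no solution for generic perturbations

Recipe.  `cay v = (1 + ∑ v i ^ 2)⁻¹ • (1 + of3 v) ^ 2` is `C¹`, of norm one, `im3 (cay v) = (2 / (1 + ∑ v i ^ 2)) • v`, and every unit `q ≠ -1`
is `cay ((1 + q.re)⁻¹ • im3 q)`; so every unit `q` is `ε • cay v` with `ε = 1` or `ε = -1`, and a coordinate of `im3 q` vanishes iff
the coordinate of `v` does.  For `ε : Gn ι → Bool` put `D = ℝ × ({p // p ∉ T} → ℝ)` (`finrank = 1 + (3 * card (Gn ι) - T.card)`),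
`Y ε v x = ± cay (fun i => if h : (x, i) ∈ T then 0 else v ⟨(x, i), h⟩)`, `W = J' → Fin 3 → ℝ`,
`P (s, v) l j = im3 (c s • pert (l (e j)) (Y ε v))` as a continuous linear map in `l` (e.g. `∑ j, ∑ k, ∑ i` of scalar functions of `(s, v)` times
constant continuous linear maps, or `contDiffAt_clm_apply_iff`-type lemmas: `contDiff_clm_apply_iff`, `ContDiffAt` version through `contDiffOn_clm_apply`),
`G (s, v) j = im3 (-(H s j y).re⁻¹ • (H s j y).im - pert (l0 s j) y)`, on the set `{(s, v) | s ∈ I ∧ ¬Abel y ∧ ∀ j, (H s j y).re < 0}`.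
`P` is onto by `pert_surj` (choose `l' j` for every `j`, `l = Function.extend e l' 0`, divide by `c s`).  `Ng.of_mul`, `pert_add`, `pert_smul` show that
the bad set lies in the finite union over `ε` of the sets of `sard_affine`; `dimH_iUnion`, finite `iSup` (`iSup_lt_iff`/`Finite.exists_max`,
or induction with `dimH_union`).
-/

set_option autoImplicit false
set_option linter.unusedSectionVars false

open Set Filter Topology Quaternion Module

namespace Crest.Agent.R251.Deg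

/-- the Cayley parametrisation of the unit quaternions -/
noncomputable def Gen_cay (v : Fin 3 → ℝ) : ℍ[ℝ] :=
  (1 + (v 0 ^ 2 + v 1 ^ 2 + v 2 ^ 2))⁻¹ • ((1 + of3 v) * (1 + of3 v))

theorem Gen_cay_contDiff : ContDiff ℝ 1 Gen_cay := by
  have h1 : ContDiff ℝ 1 fun v : Fin 3 → ℝ => 1 + of3 v := contDiff_const.add contDiff_of3
  have h2 : ContDiff ℝ 1 fun v : Fin 3 → ℝ => (1 + (v 0 ^ 2 + v 1 ^ 2 + v 2 ^ 2))⁻¹ :=
    ContDiff.inv (by fun_prop) fun v => by positivity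
  exact h2.smul (h1.mul h1)

theorem Gen_cay_norm (v : Fin 3 → ℝ) : ‖Gen_cay v‖ = 1 := by
  have h0 : 0 < 1 + (v 0 ^ 2 + v 1 ^ 2 + v 2 ^ 2) := by positivity
  have h1 : ‖1 + of3 v‖ * ‖1 + of3 v‖ = 1 + (v 0 ^ 2 + v 1 ^ 2 + v 2 ^ 2) := by
    rw [← normSq_eq_norm_mul_self, normSq_def']
    simp [of3]
    ring
  rw [Gen_cay, norm_smul, norm_mul, h1, Real.norm_eq_abs, abs_of_pos (inv_pos.2 h0), inv_mul_cancel₀ h0.ne']

theorem Gen_cay_surj {q : ℍ[ℝ]} (hq : ‖q‖ = 1) (h : q.re ≠ -1) : Gen_cay ((1 + q.re)⁻¹ • im3 q) = q := by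
  have hs := qu_sq hq
  have h1 : 1 + q.re ≠ 0 := fun h0 => h (by linarith)
  have h2 : 1 + (((1 + q.re)⁻¹ * q.imI) ^ 2 + ((1 + q.re)⁻¹ * q.imJ) ^ 2 + ((1 + q.re)⁻¹ * q.imK) ^ 2) =
      2 / (1 + q.re) := by
    field_simp
    linear_combination hs
  have h3 : ((1 + q.re)⁻¹ • im3 q) 0 = (1 + q.re)⁻¹ * q.imI := rfl
  have h4 : ((1 + q.re)⁻¹ • im3 q) 1 = (1 + q.re)⁻¹ * q.imJ := rfl
  have h5 : ((1 + q.re)⁻¹ • im3 q) 2 = (1 + q.re)⁻¹ * q.imK := rfl
  rw [Gen_cay, of3, h3, h4, h5, h2]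
  ext <;> simp <;> field_simp
  · linear_combination (-1 : ℝ) * hs
  all_goals ring

theorem Gen_exists {q : ℍ[ℝ]} (hq : ‖q‖ = 1) :
    ∃ (b : Bool) (v : Fin 3 → ℝ), q = (if b then (1 : ℝ) else -1) • Gen_cay v ∧ ∀ i, im3 q i = 0 → v i = 0 := by
  by_cases h : q.re = -1
  · refine ⟨false, (1 + (-q).re)⁻¹ • im3 (-q), ?_, fun i hi => ?_⟩
    · rw [Gen_cay_surj (by rwa [norm_neg]) (by simp [h]; norm_num)]
      simp
    · have : im3 (-q) i = -im3 q i := by fin_cases i <;> simp [im3]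
      simp [this, hi]
  · refine ⟨true, (1 + q.re)⁻¹ • im3 q, ?_, fun i hi => by simp [hi]⟩
    rw [Gen_cay_surj hq h]
    simp

theorem Gen_im3_smul (c : ℝ) (q : ℍ[ℝ]) : im3 (c • q) = c • im3 q := by
  funext i
  fin_cases i <;> simp [im3]

theorem Gen_im3_add (p q : ℍ[ℝ]) : im3 (p + q) = im3 p + im3 q := by
  funext i
  fin_cases i <;> simp [im3]

variable {ι : Type} [Fintype ι] [DecidableEq ι]

/-- tuples of unit quaternions with prescribed vanishing coordinates -/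
noncomputable def Gen_Y (T : Finset (Gn ι × Fin 3)) (ε : Gn ι → Bool) (v : {p // p ∉ T} → ℝ) : Tup ι := fun x =>
  (if ε x then (1 : ℝ) else -1) • Gen_cay fun i => if h : (x, i) ∈ T then 0 else v ⟨(x, i), h⟩

theorem Gen_Y_contDiff (T : Finset (Gn ι × Fin 3)) (ε : Gn ι → Bool) : ContDiff ℝ 1 (Gen_Y T ε) := by
  refine contDiff_pi.2 fun x => ContDiff.const_smul _ (Gen_cay_contDiff.comp (contDiff_pi.2 fun i => ?_))
  by_cases h : (x, i) ∈ T
  · simp only [dif_pos h]; exact contDiff_const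
  · simp only [dif_neg h]; exact contDiff_apply ℝ ℝ _

theorem Gen_Y_unit (T : Finset (Gn ι × Fin 3)) (ε : Gn ι → Bool) (v : {p // p ∉ T} → ℝ) : UnitT (Gen_Y T ε v) := by
  intro x
  rw [Gen_Y, norm_smul, Gen_cay_norm]
  split_ifs <;> simp

theorem Gen_Y_surj (T : Finset (Gn ι × Fin 3)) {y : Tup ι} (hy : UnitT y) (hT : ∀ p ∈ T, im3 (y p.1) p.2 = 0) :
    ∃ ε v, Gen_Y T ε v = y := by
  choose b v hv hv0 using fun x => Gen_exists (hy x)
  refine ⟨b, fun p => v p.1.1 p.1.2, funext fun x => ?_⟩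
  rw [hv x, Gen_Y]
  congr 2
  funext i
  by_cases h : (x, i) ∈ T
  · rw [dif_pos h, hv0 x i (hT _ h)]
  · rw [dif_neg h]

/-- the linear part of the equations -/
noncomputable def Gen_P {J J' : Type} [Fintype J] [Fintype J'] (e : J' → J) (c : ℝ) (y : Tup ι) :
    (J → KK ι → ℝ) →L[ℝ] (J' → Fin 3 → ℝ) :=
  LinearMap.toContinuousLinearMap
    { toFun := fun l j => c • im3 (pert (l (e j)) y)
      map_add' := fun l l' => by
        funext j
        simp only [Pi.add_apply, pert_add, Gen_im3_add, smul_add]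
      map_smul' := fun r l => by
        funext j
        simp only [Pi.smul_apply, pert_smul, Gen_im3_smul, RingHom.id_apply, smul_comm c r] }

theorem Gen_P_apply {J J' : Type} [Fintype J] [Fintype J'] (e : J' → J) (c : ℝ) (y : Tup ι) (l : J → KK ι → ℝ)
    (j : J') : Gen_P e c y l j = c • im3 (pert (l (e j)) y) := rfl

theorem gen {J J' : Type} [Fintype J] [Fintype J'] [Nonempty J] (e : J' → J) (he : Function.Injective e)
    (I : Set ℝ) (H : ℝ → J' → Tup ι → ℍ[ℝ])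
    (hH : ∀ j, ∀ s ∈ I, ∀ y, UnitT y → ContDiffAt ℝ 1 (fun p : ℝ × Tup ι => H p.1 j p.2) (s, y))
    (c : ℝ → ℝ) (hc : ContDiff ℝ 1 c) (hc0 : ∀ s ∈ I, c s ≠ 0)
    (l0 : ℝ → J' → KK ι → ℝ) (hl0 : ContDiff ℝ 1 l0)
    (T : Finset (Gn ι × Fin 3)) (hT : 1 + 3 * Fintype.card (Gn ι) < 3 * Fintype.card J' + T.card) :
    dimH {l : J → KK ι → ℝ | ∃ s ∈ I, ∃ y : Tup ι, UnitT y ∧ ¬Abel y ∧ (∀ p ∈ T, im3 (y p.1) p.2 = 0) ∧
      ∀ j, Ng (H s j y * (1 + pert (l0 s j + c s • l (e j)) y))} < finrank ℝ (J → KK ι → ℝ) := by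
  have h0 : 0 < finrank ℝ (J → KK ι → ℝ) := finrank_pos
  have hdim : finrank ℝ (ℝ × ({p // p ∉ T} → ℝ)) < finrank ℝ (J' → Fin 3 → ℝ) := by
    have h1 : Fintype.card {p // p ∉ T} + T.card = 3 * Fintype.card (Gn ι) := by
      rw [Fintype.card_subtype_compl, Fintype.card_coe, Nat.sub_add_cancel (Finset.card_le_univ T),
        Fintype.card_prod, Fintype.card_fin, mul_comm]
    rw [finrank_prod, finrank_self, finrank_fintype_fun_eq_card, finrank_pi_fintype]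
    simp only [finrank_fintype_fun_eq_card, Fintype.card_fin, Finset.sum_const, Finset.card_univ, smul_eq_mul]
    omega
  have key : ∀ ε : Gn ι → Bool, dimH {l : J → KK ι → ℝ |
      ∃ d ∈ {d : ℝ × ({p // p ∉ T} → ℝ) | d.1 ∈ I ∧ ¬Abel (Gen_Y T ε d.2) ∧ ∀ j, (H d.1 j (Gen_Y T ε d.2)).re < 0},
        Gen_P e (c d.1) (Gen_Y T ε d.2) l = fun j =>
          im3 (-((H d.1 j (Gen_Y T ε d.2)).re)⁻¹ • (H d.1 j (Gen_Y T ε d.2)).im) -
            im3 (pert (l0 d.1 j) (Gen_Y T ε d.2))} < finrank ℝ (J → KK ι → ℝ) := fun ε => by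
    have hY : ContDiff ℝ 1 fun d : ℝ × ({p // p ∉ T} → ℝ) => Gen_Y T ε d.2 := (Gen_Y_contDiff T ε).comp contDiff_snd
    refine sard_affine h0 hdim _ (fun d => Gen_P e (c d.1) (Gen_Y T ε d.2)) _ (fun d _ => ?_) (fun d hd => ?_)
      (fun d hd w => ?_)
    · refine ContDiff.contDiffAt (contDiff_clm_apply_iff.2 fun l => contDiff_pi.2 fun j => ?_)
      simp only [Gen_P_apply]
      exact (hc.comp contDiff_fst).smul (contDiff_im3.comp (contDiff_pert.comp (contDiff_const.prodMk hY)))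
    · refine contDiffAt_pi.2 fun j => ?_
      have h1 : ContDiffAt ℝ 1 (fun d : ℝ × ({p // p ∉ T} → ℝ) => H d.1 j (Gen_Y T ε d.2)) d :=
        ContDiffAt.comp (g := fun p : ℝ × Tup ι => H p.1 j p.2) (f := fun d => (d.1, Gen_Y T ε d.2)) d
          (hH j d.1 hd.1 _ (Gen_Y_unit T ε d.2)) (contDiffAt_fst.prodMk hY.contDiffAt)
      refine ContDiffAt.sub (contDiff_im3.contDiffAt.comp d (ContDiffAt.smul
        ((contDiff_re.contDiffAt.comp d h1).inv (hd.2.2 j).ne).neg (contDiff_im.contDiffAt.comp d h1))) ?_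
      exact (contDiff_im3.comp (contDiff_pert.comp
        (((contDiff_apply ℝ _ j).comp (hl0.comp contDiff_fst)).prodMk hY))).contDiffAt
    · choose l' hl' using fun j => pert_surj hd.2.1 (v := of3 ((c d.1)⁻¹ • w j)) rfl
      refine ⟨Function.extend e l' 0, funext fun j => ?_⟩
      rw [Gen_P_apply, he.extend_apply, hl', im3_of3, smul_inv_smul₀ (hc0 _ hd.1)]
  obtain ⟨ε₀, hε₀⟩ := Finite.exists_max fun ε : Gn ι → Bool => dimH {l : J → KK ι → ℝ |
      ∃ d ∈ {d : ℝ × ({p // p ∉ T} → ℝ) | d.1 ∈ I ∧ ¬Abel (Gen_Y T ε d.2) ∧ ∀ j, (H d.1 j (Gen_Y T ε d.2)).re < 0},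
        Gen_P e (c d.1) (Gen_Y T ε d.2) l = fun j =>
          im3 (-((H d.1 j (Gen_Y T ε d.2)).re)⁻¹ • (H d.1 j (Gen_Y T ε d.2)).im) -
            im3 (pert (l0 d.1 j) (Gen_Y T ε d.2))}
  refine lt_of_le_of_lt (le_trans (dimH_mono ?_) ((dimH_iUnion _).trans_le (iSup_le hε₀))) (key ε₀)
  rintro l ⟨s, hs, y, hy, hab, hT0, hN⟩
  obtain ⟨ε, v, rfl⟩ := Gen_Y_surj T hy hT0
  refine mem_iUnion.2 ⟨ε, (s, v), ⟨hs, hab, fun j => ((hN j).of_mul (pert_re _ _)).1⟩, funext fun j => ?_⟩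
  rw [Gen_P_apply, ← ((hN j).of_mul (pert_re _ _)).2, pert_add, pert_smul, Gen_im3_add, Gen_im3_smul]
  simp

end Crest.Agent.R251.Deg
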