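import Crest.Agent.R251.Deg.Gen

/-!
# Row 251: the two genericity statements that are used

Recipes.
* `exists_normal`: if `a` is not real, `qu_step1` conjugates `a` to `a.re + r i`, `r > 0`, and then the conjugate of `b` commutes with it, so lies in
  `ℝ + ℝ i`; if `a` is real do the same with `b` (or take `q = 1` if both are real).  Then `qu_step2` for the conjugate of `c` (`p ∈ ℝ + ℝ i` commutes
  with `ℝ + ℝ i`; if `imJ = imK = 0` take `p = 1`).  Normalise `p * q` as in `exists_slicePair`.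
* `genB0`: let `y` be a unit solution with commuting `t`, `u`.  `y` is not abelian (`Ng.of_mul` for slot `none` against `HAdm.ab`), so `ι` is
  nonempty (if `ι` is empty the bad set is empty: every pair of generators commutes; `dimH_empty`, `finrank_pos`).  Fix `a : ι`,
  `T = {(none, 1), (none, 2), (some none, 1), (some none, 2), (some (some a), 2)}` (card 5), conjugate `y` by the `q` of `exists_normal`
  (`SM.equi`, `pert_cj`, `ng_conj`; `Abel (cj q y) → Abel y`), `dimH_mono` and `gen`; `card (Gn ι) = card ι + 2`.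
* `genS`: `gen` with `e = id`, `I = {0}`, `H s = f`, `c = 1`, `l0 = 0`, `T = {(none, 1), (none, 2), (some none, 2)}`; slice points are not abelian
  (`SlicePair.not_comm`).
-/

set_option autoImplicit false
set_option linter.unusedSectionVars false

open Set Filter Topology Quaternion Module

namespace Crest.Agent.R251.Deg

theorem GenB_comm {a b q : ℍ[ℝ]} (hq : q ≠ 0) :
    (q * a * q⁻¹) * (q * b * q⁻¹) = (q * b * q⁻¹) * (q * a * q⁻¹) ↔ a * b = b * a := by
  simp only [mul_assoc, inv_mul_cancel_left₀ hq]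
  rw [mul_right_inj' hq]
  simp only [← mul_assoc]
  exact mul_left_inj' (inv_ne_zero hq)

theorem GenB_real {a : ℍ[ℝ]} (h : a.imI = 0 ∧ a.imJ = 0 ∧ a.imK = 0) {q : ℍ[ℝ]} (hq : q ≠ 0) :
    q * a * q⁻¹ = a := by
  refine qu_conj hq ?_
  ext <;> simp [h.1, h.2.1, h.2.2] <;> ring

theorem GenB_half {a b : ℍ[ℝ]} (h : a * b = b * a) (ha : ¬(a.imI = 0 ∧ a.imJ = 0 ∧ a.imK = 0)) :
    ∃ q : ℍ[ℝ], q ≠ 0 ∧ (q * a * q⁻¹).imJ = 0 ∧ (q * a * q⁻¹).imK = 0 ∧ (q * b * q⁻¹).imJ = 0 ∧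
      (q * b * q⁻¹).imK = 0 := by
  obtain ⟨q, hq, r, hr, hqa⟩ := qu_step1 ha
  have h1 := (GenB_comm hq).2 h
  refine ⟨q, hq, by rw [hqa], by rw [hqa], ?_⟩
  rw [hqa] at h1
  generalize q * b * q⁻¹ = c at h1
  have h2 := congrArg QuaternionAlgebra.imJ h1
  have h3 := congrArg QuaternionAlgebra.imK h1
  simp at h2 h3
  constructor
  · exact (mul_eq_zero.1 (by linarith : r * c.imJ = 0)).resolve_left hr.ne'
  · exact (mul_eq_zero.1 (by linarith : r * c.imK = 0)).resolve_left hr.ne'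

theorem GenB_line {a b : ℍ[ℝ]} (h : a * b = b * a) :
    ∃ q : ℍ[ℝ], q ≠ 0 ∧ (q * a * q⁻¹).imJ = 0 ∧ (q * a * q⁻¹).imK = 0 ∧ (q * b * q⁻¹).imJ = 0 ∧
      (q * b * q⁻¹).imK = 0 := by
  by_cases ha : a.imI = 0 ∧ a.imJ = 0 ∧ a.imK = 0
  · by_cases hb : b.imI = 0 ∧ b.imJ = 0 ∧ b.imK = 0
    · exact ⟨1, one_ne_zero, by simp [ha, hb]⟩
    · obtain ⟨q, hq, h1, h2, h3, h4⟩ := GenB_half h.symm hb
      exact ⟨q, hq, h3, h4, h1, h2⟩
  · exact GenB_half h ha

theorem exists_normal {a b : ℍ[ℝ]} (h : a * b = b * a) (c : ℍ[ℝ]) :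
    ∃ q : ℍ[ℝ], ‖q‖ = 1 ∧ (q * a * q⁻¹).imJ = 0 ∧ (q * a * q⁻¹).imK = 0 ∧ (q * b * q⁻¹).imJ = 0 ∧
      (q * b * q⁻¹).imK = 0 ∧ (q * c * q⁻¹).imK = 0 := by
  obtain ⟨q, hq, h1, h2, h3, h4⟩ := GenB_line h
  obtain ⟨p, hp, hpJ, hpK, hc⟩ : ∃ p : ℍ[ℝ], p ≠ 0 ∧ p.imJ = 0 ∧ p.imK = 0 ∧
      (p * (q * c * q⁻¹) * p⁻¹).imK = 0 := by
    by_cases hc : (q * c * q⁻¹).imJ = 0 ∧ (q * c * q⁻¹).imK = 0
    · exact ⟨1, one_ne_zero, rfl, rfl, by rw [one_mul, inv_one, mul_one]; exact hc.2⟩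
    · obtain ⟨p, hp, hpJ, hpK, ρ, -, h5⟩ := qu_step2 hc
      exact ⟨p, hp, hpJ, hpK, by rw [h5]⟩
  have hpq : p * q ≠ 0 := mul_ne_zero hp hq
  have hn : ‖p * q‖⁻¹ ≠ 0 := inv_ne_zero (norm_ne_zero_iff.2 hpq)
  have hx : ∀ x : ℍ[ℝ], (‖p * q‖⁻¹ • (p * q)) * x * (‖p * q‖⁻¹ • (p * q))⁻¹ =
      p * (q * x * q⁻¹) * p⁻¹ := by
    intro x
    rw [smul_inv₀, smul_mul_assoc, smul_mul_assoc, mul_smul_comm, smul_smul, mul_inv_cancel₀ hn,
      one_smul, _root_.mul_inv_rev]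
    simp only [mul_assoc]
  have h5 : ∀ c : ℍ[ℝ], c.imJ = 0 → c.imK = 0 → p * c * p⁻¹ = c := by
    intro c h1 h2
    refine qu_conj hp ?_
    ext <;> simp [hpJ, hpK, h1, h2] <;> ring
  refine ⟨‖p * q‖⁻¹ • (p * q), norm_smul_inv_norm hpq, ?_⟩
  rw [hx, hx, hx, h5 _ h1 h2, h5 _ h3 h4]
  exact ⟨h1, h2, h3, h4, hc⟩

variable {ι : Type} [Fintype ι] [DecidableEq ι]

theorem genB0 {J : Type} [Fintype J] (e : Option ι → J) (he : Function.Injective e) {I : Set ℝ}
    (hI : I ⊆ Icc (0 : ℝ) 1) {H : ℝ → Sys ι} (hH : HAdm H)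
    (c : ℝ → ℝ) (hc : ContDiff ℝ 1 c) (hc0 : ∀ s ∈ I, c s ≠ 0)
    (l0 : ℝ → Option ι → KK ι → ℝ) (hl0 : ContDiff ℝ 1 l0) :
    dimH {l : J → KK ι → ℝ | ∃ s ∈ I, ¬Good (pf (H s) fun j => l0 s j + c s • l (e j))} <
      finrank ℝ (J → KK ι → ℝ) := by
  have : Nonempty J := ⟨e none⟩
  have hna : ∀ (l : J → KK ι → ℝ), ∀ s ∈ I, ∀ y, UnitT y →
      (∀ j, Ng (pf (H s) (fun j => l0 s j + c s • l (e j)) j y)) → ¬Abel y := by
    intro l s hs y hy hN ha
    have h1 := ((hN none).of_mul (pert_re _ _)).1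
    exact absurd (hH.ab s (hI hs) y hy ha) (not_le.2 h1)
  have hd : ∀ j, ∀ s ∈ I, ∀ y, UnitT y → ContDiffAt ℝ 1 (fun p : ℝ × Tup ι => H p.1 j p.2) (s, y) :=
    fun j s hs y hy => (hH.hsm j).diff s (hI hs) y hy
  rcases isEmpty_or_nonempty ι with hι | ⟨⟨a⟩⟩
  · refine lt_of_le_of_lt (dimH_mono ?_) (gen e he I H hd c hc hc0 l0 hl0 Finset.univ (by simp))
    rintro l ⟨s, hs, hg⟩
    refine absurd (fun y hy hN hcm => hna l s hs y hy hN ?_) hg
    rintro (_ | _ | x) (_ | _ | x')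
    exacts [rfl, hcm, hι.elim x', hcm.symm, rfl, hι.elim x', hι.elim x, hι.elim x, hι.elim x]
  · refine lt_of_le_of_lt (dimH_mono ?_) (gen e he I H hd c hc hc0 l0 hl0
      {(none, 1), (none, 2), (some none, 1), (some none, 2), (some (some a), 2)} ?_)
    · rintro l ⟨s, hs, hg⟩
      simp only [Good, not_forall, not_not] at hg
      obtain ⟨y, hy, hN, hcm⟩ := hg
      obtain ⟨q, hq, h1, h2, h3, h4, h5⟩ := exists_normal hcm (y (some (some a)))
      have hq0 := qu_ne hq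
      refine ⟨s, hs, cj q y, hy.cj hq0, fun ha => hna l s hs y hy hN fun x x' =>
        (GenB_comm hq0).1 (ha x x'), ?_, fun j => ?_⟩
      · simp only [Finset.mem_insert, Finset.mem_singleton]
        rintro p (rfl | rfl | rfl | rfl | rfl)
        exacts [h1, h2, h3, h4, h5]
      · rw [((hH.hsm j).sm s (hI hs)).equi y q hy hq, pert_cj _ _ hq0]
        have h6 := (ng_conj hq0 _).2 (hN j)
        have h7 : ∀ u v : ℍ[ℝ], q * u * q⁻¹ * (1 + q * v * q⁻¹) = q * (u * (1 + v)) * q⁻¹ := by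
          intro u v
          simp only [mul_add, add_mul, mul_one, mul_assoc, inv_mul_cancel_left₀ hq0]
        rw [h7]
        exact h6
    · rw [Finset.card_insert_of_notMem (by simp), Finset.card_insert_of_notMem (by simp),
        Finset.card_insert_of_notMem (by simp), Finset.card_insert_of_notMem (by simp)]
      simp only [Fintype.card_option, Finset.card_singleton]
      omega

/-- the case of a single system -/
theorem genB1 {J : Type} [Fintype J] (e : Option ι → J) (he : Function.Injective e) {f : Sys ι} (hf : Adm f) :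
    dimH {l : J → KK ι → ℝ | ¬Good (pf f fun j => l (e j))} < finrank ℝ (J → KK ι → ℝ) := by
  have := genB0 e he (I := {0}) (by simp) hf.hadm (fun _ => 1) contDiff_const (by simp) (fun _ => 0) contDiff_const
  simpa using this

theorem genS (f : Option (Option ι) → Tup ι → ℍ[ℝ]) (hf : ∀ j, SM (f j)) :
    dimH {l : Option (Option ι) → KK ι → ℝ | ∃ y : Tup ι, UnitT y ∧ Slice y ∧
      ∀ j, Ng (f j y * (1 + pert (l j) y))} < finrank ℝ (Option (Option ι) → KK ι → ℝ) := by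
  refine lt_of_le_of_lt (dimH_mono ?_) (gen id Function.injective_id {0} (fun _ => f)
    (fun j s _ y hy => ((hf j).diff y hy).comp _ contDiffAt_snd)
    (fun _ => 1) contDiff_const (by simp) (fun _ => 0) contDiff_const
    {(none, 1), (none, 2), (some none, 2)} ?_)
  · rintro l ⟨y, hy, hs, hN⟩
    refine ⟨0, rfl, y, hy, fun ha => hs.not_comm (ha _ _), ?_, by simpa using hN⟩
    simp only [Finset.mem_insert, Finset.mem_singleton]
    rintro p (rfl | rfl | rfl)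
    exacts [hs.2.1, hs.2.2.1, hs.2.2.2.2]
  · rw [Finset.card_insert_of_notMem (by simp), Finset.card_insert_of_notMem (by simp)]
    simp only [Fintype.card_option, Finset.card_singleton]
    omega

end Crest.Agent.R251.Deg
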