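import Crest.Agent.R251.Deg.Defs

/-!
# Row 251: determinant identities

Recipes.
* `fox_gauge`: entrywise `∑ x, rz (AdW y) (fox of w x) * (1 - Ad (y x)) = -(rz (AdW y) (og w - 1))` by `fox_fund` (`FreeGroup.lift_of_apply`,
  `rz_og`, `AdW_apply`, `ev_of`).
* `JX_identity`: `M = JX rel y Ξ`, `M' = JX rel y Ξ'`, `N = M' * M⁻¹`.  The rows `(some j, i)` of `N` are those of `M * M⁻¹ = 1`, so
  `det N = det A` with `A k k' = N (none, k) (none, k')` (`Matrix.twoBlockTriangular_det` with `p q := q.1 = none`, or reindex by an equivalence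
  `Fin 3 ⊕ (Option ι × Fin 3) ≃ Gn ι × Fin 3` and `Matrix.det_fromBlocks_zero₂₁`).  `M' * gauge y = N * (M * gauge y)`, and the rows `(some j, i)` of
  `M * gauge y` vanish (`fox_gauge`, `Fintype.sum_prod_type`), so `Ξ' * gauge y = A * (Ξ * gauge y)`.  Take determinants.
* `signAt_unique`: multiply the identity by `e * e' * ...` (`nlinarith`/`mul_pos`, `pos_of_mul_pos`).
* `det_tup`: a basis of `Tup ι` indexed by `Gn ι ⊕ Gn ι × Fin 3` (`Module.Basis.ofEquivFun` of the linear equivalence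
  `ζ ↦ Sum.elim (fun x => (ζ x).re) (fun p => im3 (ζ p.1) p.2)`), `LinearMap.det_toMatrix`; the matrix is `fromBlocks (c • 1) 0 C M`
  (`Matrix.det_fromBlocks_zero₁₂`).
* `det_rmul`: `LinearMap.det_pi` and the determinant of `q ↦ q * a` on `ℍ` is `normSq a ^ 2` (`QuaternionAlgebra.basisOneIJK`, 4 × 4 determinant), or
  `R174.det_pos_of_sq` with square roots.
-/

set_option autoImplicit false
set_option linter.unusedSectionVars false

open Set Filter Topology Quaternion Matrix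

namespace Crest.Agent.R251.Deg

open Crest.Agent.Lib.GR

variable {ι : Type} [Fintype ι] [DecidableEq ι]

theorem fox_gauge {y : Tup ι} (hy : UnitT y) {w : FreeGroup (Gn ι)} (hw : AdW y w = 1) :
    ∑ x, rz (AdW y) (fox FreeGroup.of w x) * (1 - Ad (y x)) = 0 := by
  have h1 := congrArg (rz (AdW y)) (fox_fund FreeGroup.of w)
  rw [FreeGroup.lift_of_apply, map_sub, rz_og, hw, map_one, sub_self, map_sum] at h1
  rw [← neg_eq_zero, ← Finset.sum_neg_distrib, ← h1]
  refine Finset.sum_congr rfl fun x _ => ?_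
  rw [map_mul, map_sub, rz_og, map_one, AdW_apply, ev_of (qu_ne (hy x)), ← mul_neg, neg_sub]

/-- splitting off the gauge rows -/
def LocAa_e (ι : Type) : Fin 3 ⊕ (Option ι × Fin 3) ≃ Gn ι × Fin 3 where
  toFun := Sum.elim (fun k => (none, k)) fun p => (some p.1, p.2)
  invFun p := match p.1 with
    | none => .inl p.2
    | some j => .inr (j, p.2)
  left_inv := by rintro (_ | _) <;> rfl
  right_inv := by rintro ⟨_ | _, _⟩ <;> rfl

theorem JX_identity {rel : Option ι → FreeGroup (Gn ι)} {y : Tup ι} (hy : UnitT y) (h : ∀ j, AdW y (rel j) = 1)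
    (Ξ Ξ' : Matrix (Fin 3) (Gn ι × Fin 3) ℝ) (h0 : (JX rel y Ξ).det ≠ 0) :
    (JX rel y Ξ).det * (Ξ' * gauge y).det = (JX rel y Ξ').det * (Ξ * gauge y).det := by
  obtain ⟨A', hA'⟩ : ∃ A' : Matrix (Fin 3) (Gn ι × Fin 3) ℝ, A' * JX rel y Ξ = Ξ' :=
    ⟨Ξ' * (JX rel y Ξ)⁻¹, Matrix.nonsing_inv_mul_cancel_right _ _ (Ne.isUnit h0)⟩
  let N : Matrix (Gn ι × Fin 3) (Gn ι × Fin 3) ℝ := Matrix.of fun p q => match p.1 with
    | none => A' p.2 q
    | some _ => (1 : Matrix (Gn ι × Fin 3) (Gn ι × Fin 3) ℝ) p q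
  let A : Matrix (Fin 3) (Fin 3) ℝ := Matrix.of fun k k' => A' k (none, k')
  have h1 : N * JX rel y Ξ = JX rel y Ξ' := by
    ext ⟨_ | j, i⟩ q
    · exact congrFun (congrFun hA' i) q
    · exact congrFun (congrFun (Matrix.one_mul (JX rel y Ξ)) (some j, i)) q
  have h2 : N.det = A.det := by
    have : N.submatrix (LocAa_e ι) (LocAa_e ι) =
        fromBlocks A (Matrix.of fun k p => A' k (some p.1, p.2)) 0 1 := by
      ext (i | ⟨j, i⟩) (i' | ⟨j', i'⟩)
      · rfl
      · rfl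
      · simp [N, LocAa_e]
      · simp [N, LocAa_e, Matrix.one_apply]
    rw [← det_submatrix_equiv_self (LocAa_e ι), this, det_fromBlocks_zero₂₁, det_one, mul_one]
  have h3 : ∀ j i k, (JX rel y Ξ * gauge y) (some j, i) k = 0 := fun j i k => by
    have := congrFun (congrFun (fox_gauge hy (h j)) i) k
    rw [Matrix.sum_apply] at this
    rw [Matrix.mul_apply, Fintype.sum_prod_type]
    exact this
  have h4 : Ξ' * gauge y = A * (Ξ * gauge y) := by
    rw [← hA', Matrix.mul_assoc]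
    ext k k'
    rw [Matrix.mul_apply, Fintype.sum_prod_type, Fintype.sum_option]
    simp only [h3, mul_zero, Finset.sum_const_zero, add_zero]
    rfl
  rw [h4, ← h1, det_mul, det_mul, h2]
  ring

theorem signAt_unique {rel : Option ι → FreeGroup (Gn ι)} {y : Gn ι → ℍ[ℝ]} (hy : UnitT y)
    (h : ∀ j, AdW y (rel j) = 1) {e e' : ℝ} (h₁ : SignAt rel y e) (h₂ : SignAt rel y e') : 0 < e * e' := by
  obtain ⟨Ξ, h₁⟩ := h₁
  obtain ⟨Ξ', h₂⟩ := h₂
  have h0 : (JX rel y Ξ).det ≠ 0 := fun h0 => by simp [h0] at h₁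
  have h3 := JX_identity hy h Ξ Ξ' h0
  have h4 := mul_pos h₁ h₂
  generalize (JX rel y Ξ).det = a at *
  generalize (JX rel y Ξ').det = b at *
  generalize (Ξ * gauge y).det = c at *
  generalize (Ξ' * gauge y).det = d at *
  have h5 : e * a * c * (e' * b * d) = e * e' * (a * d) ^ 2 := by
    linear_combination (-e * e' * a * d) * h3
  rw [h5] at h4
  exact pos_of_mul_pos_left h4 (sq_nonneg _)

/-- with gauge fixing rows of positive gauge determinant the sign is the sign of `det JX` -/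
theorem SignAt_pos {rel : Option ι → FreeGroup (Gn ι)} {y : Gn ι → ℍ[ℝ]} (hy : UnitT y)
    (h : ∀ j, AdW y (rel j) = 1) {e : ℝ} (h₁ : SignAt rel y e) {Ξ : Matrix (Fin 3) (Gn ι × Fin 3) ℝ}
    (hΞ : 0 < (Ξ * gauge y).det) : 0 < e * (JX rel y Ξ).det := by
  obtain ⟨Ξ', h₁⟩ := h₁
  have h0 : (JX rel y Ξ').det ≠ 0 := fun h0 => by simp [h0] at h₁
  have h3 := JX_identity hy h Ξ' Ξ h0
  have h4 := mul_pos h₁ hΞ
  generalize (JX rel y Ξ).det = a at *
  generalize (JX rel y Ξ').det = b at *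
  generalize (Ξ * gauge y).det = c at *
  generalize (Ξ' * gauge y).det = d at *
  have h5 : e * b * d * c = e * a * d ^ 2 := by linear_combination (e * d) * h3
  rw [h5] at h4
  exact pos_of_mul_pos_left h4 (sq_nonneg _)

/-- real coordinates of a tuple -/
def LocAb_E (ι : Type) : Tup ι ≃ₗ[ℝ] (Gn ι ⊕ Gn ι × Fin 3 → ℝ) where
  toFun ζ := Sum.elim (fun x => (ζ x).re) fun p => im3 (ζ p.1) p.2
  invFun v x := ⟨v (.inl x), v (.inr (x, 0)), v (.inr (x, 1)), v (.inr (x, 2))⟩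
  map_add' ζ ζ' := by
    funext p
    rcases p with x | ⟨x, i⟩
    · simp
    · fin_cases i <;> simp [im3]
  map_smul' c ζ := by
    funext p
    rcases p with x | ⟨x, i⟩
    · simp
    · fin_cases i <;> simp [im3]
  left_inv ζ := by
    funext x
    ext <;> simp [im3]
  right_inv v := by
    funext p
    rcases p with x | ⟨x, i⟩
    · simp
    · fin_cases i <;> simp [im3]

theorem det_tup (T : Tup ι →ₗ[ℝ] Tup ι) (c : ℝ) (M : Matrix (Gn ι × Fin 3) (Gn ι × Fin 3) ℝ)
    (h₁ : ∀ ζ x, (T ζ x).re = c * (ζ x).re)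
    (h₂ : ∀ (ξ : Gn ι × Fin 3 → ℝ) x i, im3 (T (fun x' => of3 fun i' => ξ (x', i')) x) i = (M *ᵥ ξ) (x, i)) :
    LinearMap.det T = c ^ Fintype.card (Gn ι) * M.det := by
  rw [← LinearMap.det_conj T (LocAb_E ι), ← LinearMap.det_toMatrix']
  set A := LinearMap.toMatrix' ((LocAb_E ι).toLinearMap ∘ₗ T ∘ₗ (LocAb_E ι).symm.toLinearMap) with hA
  have hA' : ∀ p q, A p q = LocAb_E ι (T ((LocAb_E ι).symm (Pi.single q 1))) p := fun p q => by
    rw [hA, LinearMap.toMatrix'_apply]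
    rfl
  have h11 : A.toBlocks₁₁ = c • (1 : Matrix (Gn ι) (Gn ι) ℝ) := by
    ext x x'
    change A (.inl x) (.inl x') = _
    rw [hA']
    change (T _ x).re = _
    rw [h₁]
    change c * (Pi.single (Sum.inl x') 1 : Gn ι ⊕ Gn ι × Fin 3 → ℝ) (.inl x) = _
    simp [Pi.single_apply, Matrix.one_apply]
  have h12 : A.toBlocks₁₂ = 0 := by
    ext x q
    change A (.inl x) (.inr q) = _
    rw [hA']
    change (T _ x).re = _
    rw [h₁]
    change c * (Pi.single (Sum.inr q) 1 : Gn ι ⊕ Gn ι × Fin 3 → ℝ) (.inl x) = _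
    simp
  have h22 : A.toBlocks₂₂ = M := by
    ext ⟨x, i⟩ q
    change A (.inr (x, i)) (.inr q) = _
    rw [hA']
    have : (LocAb_E ι).symm (Pi.single (Sum.inr q) 1) =
        fun x' => of3 fun i' => (Pi.single q 1 : Gn ι × Fin 3 → ℝ) (x', i') := by
      funext x'
      change (⟨_, _, _, _⟩ : ℍ[ℝ]) = ⟨_, _, _, _⟩
      simp [Pi.single_apply]
    rw [this]
    change im3 (T _ x) i = _
    rw [h₂]
    simp
  rw [← Matrix.fromBlocks_toBlocks A, h11, h12, h22, det_fromBlocks_zero₁₂, det_smul, det_one, mul_one]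

/-- right multiplication by a tuple -/
noncomputable def rmul (y : Tup ι) : Tup ι →ₗ[ℝ] Tup ι where
  toFun ζ x := ζ x * y x
  map_add' ζ ζ' := by funext x; simp [add_mul]
  map_smul' c ζ := by funext x; simp

theorem LocAb_det (a : ℍ[ℝ]) : LinearMap.det (LinearMap.mulRight ℝ a) = normSq a ^ 2 := by
  let b : Module.Basis (Fin 4) ℝ ℍ[ℝ] := QuaternionAlgebra.basisOneIJK (-1 : ℝ) 0 (-1)
  rw [← LinearMap.det_toMatrix b]
  have hb : ∀ q : ℍ[ℝ], b.repr q = ![q.re, q.imI, q.imJ, q.imK] := QuaternionAlgebra.coe_basisOneIJK_repr _ _ _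
  have hb' : ∀ j, b j = ⟨(Pi.single j 1 : Fin 4 → ℝ) 0, (Pi.single j 1 : Fin 4 → ℝ) 1, (Pi.single j 1 : Fin 4 → ℝ) 2,
      (Pi.single j 1 : Fin 4 → ℝ) 3⟩ := fun j => by
    have h := hb (b j)
    rw [Module.Basis.repr_self, Finsupp.single_eq_pi_single] at h
    rw [h]
    rfl
  have : LinearMap.toMatrix b b (LinearMap.mulRight ℝ a) =
      !![a.re, -a.imI, -a.imJ, -a.imK; a.imI, a.re, a.imK, -a.imJ;
        a.imJ, -a.imK, a.re, a.imI; a.imK, a.imJ, -a.imI, a.re] := by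
    ext i j
    rw [LinearMap.toMatrix_apply, hb, hb']
    fin_cases i <;> fin_cases j <;> simp
  rw [this, normSq_def', Matrix.det_succ_row_zero]
  simp [Fin.sum_univ_succ, Matrix.det_fin_three, Fin.succAbove]
  ring

theorem det_rmul {y : Tup ι} (hy : UnitT y) : 0 < LinearMap.det (rmul y) := by
  have : rmul y = LinearMap.pi fun x => (LinearMap.mulRight ℝ (y x)).comp (LinearMap.proj x) := rfl
  rw [this, LinearMap.det_pi]
  refine Finset.prod_pos fun x _ => ?_
  rw [LocAb_det]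
  exact pow_pos ((normSq_ne_zero.2 (qu_ne (hy x))).lt_of_le' normSq_nonneg) 2

end Crest.Agent.R251.Deg
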