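import Crest.Agent.R251.Deg.Defs

/-!
# Row 251: perturbations and closure properties of slot maps

Recipes.  `(q * a * q⁻¹).re = a.re` and `(q * a * q⁻¹).im = q * a.im * q⁻¹` (`qu_inv`, coordinates, or `a = a.re + a.im`).
`pert` is a polynomial map (`Quaternion.im` is linear: `a.im = a - (a.re : ℍ)`, `Quaternion.continuous_re`-type linear maps
`QuaternionAlgebra.reₗ`, `LinearMap.toContinuousLinearMap`).
`pert_surj`: take `x, x'` with `a = y x`, `b = y x'` not commuting (so `x ≠ x'`), `exists_slicePair` gives `q` with `a' = q a q⁻¹ = a₀ + a₁ i`,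
`b' = b₀ + b₁ i + b₂ j`, `a₁, b₂ > 0`, `(a' b').imK = a₁ b₂`; solve `q v q⁻¹ = c₁ a'.im + c₂ b'.im + c₃ (a' b').im` (triangular) and conjugate back;
`l = c₁ • Pi.single (inl x) 1 + c₂ • Pi.single (inl x') 1 + c₃ • Pi.single (inr (x, x')) 1`.
`Ng.of_mul`: `f (1 + p) = -r` gives `(1 + p) = -r f⁻¹ = -(r / normSq f) • star f`; compare real and imaginary parts
(or: coordinates and `nlinarith`/`field_simp`).
-/

set_option autoImplicit false
set_option linter.unusedSectionVars false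

open Set Filter Topology Quaternion

namespace Crest.Agent.R251.Deg

open Crest.Agent.Lib.GR

theorem re_conj {q : ℍ[ℝ]} (hq : q ≠ 0) (a : ℍ[ℝ]) : (q * a * q⁻¹).re = a.re := by
  have h : ∀ x y : ℍ[ℝ], (x * y).re = (y * x).re := fun x y => by
    simp only [re_mul]
    ring
  rw [h, inv_mul_cancel_left₀ hq]

theorem im_conj {q : ℍ[ℝ]} (hq : q ≠ 0) (a : ℍ[ℝ]) : (q * a * q⁻¹).im = q * a.im * q⁻¹ := by
  rw [← sub_re_self, ← sub_re_self, re_conj hq, mul_sub, sub_mul, ← coe_commutes,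
    mul_inv_cancel_right₀ hq]

theorem ng_conj {q : ℍ[ℝ]} (hq : q ≠ 0) (a : ℍ[ℝ]) : Ng (q * a * q⁻¹) ↔ Ng a := by
  simp only [Ng, re_conj hq, im_conj hq, mul_eq_zero, hq, inv_eq_zero, false_or, or_false]

theorem Pert_lin {E F : Type} [NormedAddCommGroup E] [NormedSpace ℝ E] [FiniteDimensional ℝ E]
    [NormedAddCommGroup F] [NormedSpace ℝ F] (f : E → F) (h1 : ∀ x y, f (x + y) = f x + f y)
    (h2 : ∀ x (c : ℝ), f (c • x) = c • f x) : ContDiff ℝ 1 f :=
  (LinearMap.toContinuousLinearMap ⟨⟨f, h1⟩, fun c x => h2 x c⟩).contDiff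

theorem contDiff_re : ContDiff ℝ 1 fun q : ℍ[ℝ] => q.re := by
  exact Pert_lin _ re_add fun x c => re_smul x c

theorem contDiff_im : ContDiff ℝ 1 fun q : ℍ[ℝ] => q.im := by
  exact Pert_lin _ im_add fun x c => im_smul x c

theorem contDiff_im3 : ContDiff ℝ 1 im3 := by
  refine Pert_lin _ (fun x y => ?_) fun x c => ?_ <;> funext i <;> fin_cases i <;> simp [im3]

theorem contDiff_of3 : ContDiff ℝ 1 of3 := by
  refine Pert_lin _ of3_add fun x c => ?_
  ext <;> simp [of3]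

theorem im3_eq_zero {q : ℍ[ℝ]} : im3 q = 0 ↔ q.im = 0 := by
  constructor
  · intro h
    ext
    exacts [rfl, congrFun h 0, congrFun h 1, congrFun h 2]
  · intro h
    funext i
    fin_cases i
    exacts [congrArg QuaternionAlgebra.imI h, congrArg QuaternionAlgebra.imJ h,
      congrArg QuaternionAlgebra.imK h]

theorem Ng.eq_neg_one {q : ℍ[ℝ]} (h : Ng q) (hq : ‖q‖ = 1) : q = -1 := by
  have h1 := qu_sq hq
  have hI : q.imI = 0 := congrArg QuaternionAlgebra.imI h.1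
  have hJ : q.imJ = 0 := congrArg QuaternionAlgebra.imJ h.1
  have hK : q.imK = 0 := congrArg QuaternionAlgebra.imK h.1
  have h2 := h.2
  rw [hI, hJ, hK] at h1
  ext <;> simp [hI, hJ, hK]
  nlinarith

theorem Pert_ne {p : ℍ[ℝ]} (hp : p.re = 0) : 1 + p ≠ 0 := fun h => by
  simpa [hp] using congrArg QuaternionAlgebra.re h

theorem Ng.of_mul {f p : ℍ[ℝ]} (hp : p.re = 0) (h : Ng (f * (1 + p))) :
    f.re < 0 ∧ p = -(f.re)⁻¹ • f.im := by
  obtain ⟨h1, h2⟩ := h
  have h3 : f * (1 + p) = ((f * (1 + p)).re : ℍ[ℝ]) := by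
    conv_lhs => rw [← re_add_im (f * (1 + p)), h1, add_zero]
  generalize (f * (1 + p)).re = r at h2 h3
  have hN : 0 < normSq (1 + p) :=
    (normSq_nonneg (a := 1 + p)).lt_of_ne' (normSq_ne_zero.2 (Pert_ne hp))
  have h4 : normSq (1 + p) • f = r • star (1 + p) := by
    rw [← mul_coe_eq_smul, ← self_mul_star, ← mul_assoc, h3, coe_mul_eq_smul]
  generalize normSq (1 + p) = N at hN h4
  have e0 : N * f.re = r := by simpa [hp] using congrArg QuaternionAlgebra.re h4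
  have e1 : N * f.imI = -(r * p.imI) := by simpa using congrArg QuaternionAlgebra.imI h4
  have e2 : N * f.imJ = -(r * p.imJ) := by simpa using congrArg QuaternionAlgebra.imJ h4
  have e3 : N * f.imK = -(r * p.imK) := by simpa using congrArg QuaternionAlgebra.imK h4
  have h5 : f.re < 0 := by
    by_contra h6
    nlinarith [mul_nonneg hN.le (not_lt.1 h6)]
  have h6 : ∀ {x y : ℝ}, N * x = -(r * y) → y = -f.re⁻¹ * x := fun {x y} e => by
    rw [neg_mul, ← mul_neg, eq_inv_mul_iff_mul_eq₀ h5.ne]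
    apply mul_left_cancel₀ hN.ne'
    linear_combination e + y * e0
  refine ⟨h5, ?_⟩
  ext
  exacts [by simp [hp], h6 e1, h6 e2, h6 e3]

variable {ι : Type} [Fintype ι] [DecidableEq ι]

theorem pert_re (l : KK ι → ℝ) (y : Tup ι) : (pert l y).re = 0 := by
  refine Finset.sum_induction _ (fun q : ℍ[ℝ] => q.re = 0) (fun a b ha hb => by simp [ha, hb]) rfl
    fun k _ => ?_
  cases k <;> simp [ee]

theorem pert_zero (y : Tup ι) : pert 0 y = 0 := by
  simp [pert]

theorem pert_add (l l' : KK ι → ℝ) (y : Tup ι) : pert (l + l') y = pert l y + pert l' y := by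
  simp only [pert, Pi.add_apply, add_smul, Finset.sum_add_distrib]

theorem pert_smul (c : ℝ) (l : KK ι → ℝ) (y : Tup ι) : pert (c • l) y = c • pert l y := by
  simp only [pert, Pi.smul_apply, smul_eq_mul, mul_smul, Finset.smul_sum]

theorem pert_cj (l : KK ι → ℝ) (y : Tup ι) {q : ℍ[ℝ]} (hq : q ≠ 0) : pert l (cj q y) = q * pert l y * q⁻¹ := by
  have h : ∀ k, ee (cj q y) k = q * ee y k * q⁻¹ := by
    rintro (x | x)
    · exact im_conj hq _
    · simp only [ee, cj]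
      rw [← im_conj hq]
      simp only [mul_assoc, inv_mul_cancel_left₀ hq]
  simp only [pert, h, Finset.mul_sum, Finset.sum_mul, mul_smul_comm, smul_mul_assoc]

theorem contDiff_ee (k : KK ι) : ContDiff ℝ 1 fun y : Tup ι => ee y k := by
  rcases k with x | x
  · exact contDiff_im.comp (contDiff_apply ℝ ℍ[ℝ] x)
  · exact contDiff_im.comp ((contDiff_apply ℝ ℍ[ℝ] x.1).mul (contDiff_apply ℝ ℍ[ℝ] x.2))

theorem contDiff_pert : ContDiff ℝ 1 fun p : (KK ι → ℝ) × Tup ι => pert p.1 p.2 := by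
  exact ContDiff.sum fun k _ =>
    ((contDiff_apply ℝ ℝ k).comp contDiff_fst).smul ((contDiff_ee k).comp contDiff_snd)

theorem Pert_single (k : KK ι) (c : ℝ) (y : Tup ι) : pert (Pi.single k c) y = c • ee y k := by
  rw [pert, Finset.sum_eq_single k (fun j _ hj => by rw [Pi.single_eq_of_ne hj, zero_smul])
    (fun h => absurd (Finset.mem_univ k) h), Pi.single_eq_same]

theorem Pert_slice {y : Tup ι} {x x' : Gn ι} (h : SlicePair (y x) (y x')) {v : ℍ[ℝ]} (hv : v.re = 0) :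
    ∃ l, pert l y = v := by
  obtain ⟨a1, a2, a3, b1, b2⟩ := h
  obtain ⟨c₃, h3⟩ : ∃ c, c * ((y x).imI * (y x').imJ) = v.imK :=
    ⟨_, div_mul_cancel₀ _ (mul_pos a1 b1).ne'⟩
  obtain ⟨c₂, h2⟩ : ∃ c, c * (y x').imJ = v.imJ - c₃ * ((y x).re * (y x').imJ) :=
    ⟨_, div_mul_cancel₀ _ b1.ne'⟩
  obtain ⟨c₁, h1⟩ : ∃ c, c * (y x).imI =
      v.imI - c₂ * (y x').imI - c₃ * ((y x).re * (y x').imI + (y x).imI * (y x').re) :=
    ⟨_, div_mul_cancel₀ _ a1.ne'⟩
  refine ⟨Pi.single (.inl x) c₁ + Pi.single (.inl x') c₂ + Pi.single (.inr (x, x')) c₃, ?_⟩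
  rw [pert_add, pert_add, Pert_single, Pert_single, Pert_single]
  ext <;> simp [ee, hv, a2, a3, b2] <;> linarith

theorem pert_surj {y : Tup ι} (hy : ¬Abel y) {v : ℍ[ℝ]} (hv : v.re = 0) : ∃ l, pert l y = v := by
  simp only [Abel, not_forall] at hy
  obtain ⟨x, x', h⟩ := hy
  obtain ⟨q, hq, hs⟩ := exists_slicePair h
  have hq0 := qu_ne hq
  obtain ⟨l, hl⟩ := Pert_slice (y := cj q y) hs ((re_conj hq0 v).trans hv)
  rw [pert_cj l y hq0] at hl
  exact ⟨l, mul_left_cancel₀ hq0 (mul_right_cancel₀ (inv_ne_zero hq0) hl)⟩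

theorem pf_zero (f : Sys ι) : pf f 0 = f := by
  funext j y
  rw [pf, Pi.zero_apply, pert_zero, add_zero, mul_one]

theorem SM.mul {f g : Tup ι → ℍ[ℝ]} (hf : SM f) (hg : SM g) : SM fun y => f y * g y := by
  refine ⟨fun y hy => (hf.diff y hy).mul (hg.diff y hy), fun y q hy hq => ?_,
    fun y hy => mul_ne_zero (hf.ne y hy) (hg.ne y hy)⟩
  rw [hf.equi y q hy hq, hg.equi y q hy hq]
  simp only [mul_assoc, inv_mul_cancel_left₀ (qu_ne hq)]

theorem HSM.mul {f g : ℝ → Tup ι → ℍ[ℝ]} (hf : HSM f) (hg : HSM g) : HSM fun s y => f s y * g s y := by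
  exact ⟨fun s hs y hy => (hf.diff s hs y hy).mul (hg.diff s hs y hy),
    fun s hs => (hf.sm s hs).mul (hg.sm s hs)⟩

theorem SM.const {c : ℝ} (hc : c ≠ 0) : SM fun _ : Tup ι => (c : ℍ[ℝ]) := by
  refine ⟨fun _ _ => contDiffAt_const, fun _ q _ hq => ?_, fun _ _ h => hc ?_⟩
  · rw [← coe_commutes, mul_inv_cancel_right₀ (qu_ne hq)]
  · exact congrArg QuaternionAlgebra.re h

theorem SM.smul {f : Tup ι → ℍ[ℝ]} (hf : SM f) {c : ℝ} (hc : c ≠ 0) : SM fun y => c • f y := by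
  simpa only [coe_mul_eq_smul] using (SM.const hc).mul hf

theorem SM.word (w : FreeGroup (Gn ι)) : SM fun y : Tup ι => ev y w := by
  exact ⟨fun y hy => contDiffAt_ev (v := fun y => y) (fun a => (contDiff_apply ℝ ℍ[ℝ] a).contDiffAt)
    (fun a => qu_ne (hy a)) w, fun _ _ hy hq => ev_cj hy (qu_ne hq) w, fun y _ => ev_ne_zero y w⟩

theorem SM.pert (l : KK ι → ℝ) : SM fun y : Tup ι => 1 + pert l y := by
  refine ⟨fun _ _ => (contDiff_const.add
      (contDiff_pert.comp (contDiff_const.prodMk contDiff_id))).contDiffAt, fun y q _ hq => ?_,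
    fun y _ => Pert_ne (pert_re l y)⟩
  rw [pert_cj l y (qu_ne hq), mul_add, add_mul, mul_one, mul_inv_cancel₀ (qu_ne hq)]

theorem HSM.pert {l : ℝ → KK ι → ℝ} (hl : ContDiff ℝ 1 l) : HSM fun s (y : Tup ι) => 1 + pert (l s) y := by
  exact ⟨fun _ _ _ _ => (contDiff_const.add
    (contDiff_pert.comp ((hl.comp contDiff_fst).prodMk contDiff_snd))).contDiffAt,
    fun s _ => SM.pert (l s)⟩

end Crest.Agent.R251.Deg
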