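import Crest.Agent.R251.Deg.LocA
import Crest.Agent.R251.Deg.Pert

/-!
# Row 251: the local degree at a regular solution

Recipes.
* `det_Xi`: `(Xi y * gauge y) k k' = im3 (gf fun x => of3 (fun i => gauge y (x, i) k') * y x) k` (`Xi_mulVec`), and
  `of3 ((1 - Ad q) *ᵥ v) * q = of3 v * q - q * of3 v` (`of3_Ad_mulVec`).  In the slice the matrix is
  `!![0, 0, a; 0, -a, 0; b, -2 u.imI, 0]`, `a = 2 t.imI`, `b = 2 u.imJ`, with determinant `a ^ 2 * b`.
* `loc`: `ε = det (diagonal fun p => if p.1 = none then 1 else -1)`.  `sg j • ev y (rel j) = -1` (`Ng.eq_neg_one`), so `AdW y (rel j) = 1`.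
  `T = fderiv (FF f) y ∘ rmul y`.  Real parts: `(FF f z x).re = normSq (z x) - 1` has derivative `η ↦ 2 * (η x * star (y x)).re`, so
  `(T ζ x).re = 2 * (ζ x).re`.  Imaginary parts on `ζ x = of3 (ξ x)`: differentiate along `Y ξ x = (1 + of3 (ξ (x, ·))) * y x` at `ξ = 0`
  (`hasFDerivAt_ev_fox` with `E = Gn ι × Fin 3 → ℝ`, chain rule and `HasFDerivAt.unique`), or along the line `s ↦ (1 + s • of3 (ξ x)) * y x` with `E = ℝ`:
  slot `some j` gives `-(∑ x, rz .. *ᵥ ξ x)`, slot `none` gives `Xi y *ᵥ ξ` (`gf` is linear).  So `M = diagonal .. * JX rel y (Xi y)` in `det_tup` with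
  `c = 2`; `LinearMap.det_comp`, `det_rmul`, `SignAt_pos`, `det_Xi`.
-/

set_option autoImplicit false
set_option linter.unusedSectionVars false

open Set Filter Topology Quaternion Matrix

namespace Crest.Agent.R251.Deg

open Crest.Agent.Lib.GR

variable {ι : Type} [Fintype ι] [DecidableEq ι]

/-- the linearised gauge fixing equations -/
noncomputable def Xi (y : Tup ι) : Matrix (Fin 3) (Gn ι × Fin 3) ℝ :=
  Matrix.of fun k q => im3 (gf (Pi.single q.1 (of3 (Pi.single q.2 1) * y q.1))) k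

theorem Xi_mulVec (y : Tup ι) (ξ : Gn ι × Fin 3 → ℝ) :
    Xi y *ᵥ ξ = im3 (gf fun x => of3 (fun i => ξ (x, i)) * y x) := by
  funext k
  fin_cases k <;>
    simp [Xi, mulVec, dotProduct, Fintype.sum_prod_type, Fintype.sum_option, Fin.sum_univ_three, gf, im3, of3] <;>
    ring

theorem LocB_gauge {q : ℍ[ℝ]} (hq : q ≠ 0) (k : Fin 3) :
    of3 (fun i => (1 - Ad q) i k) * q = of3 (Pi.single k 1) * q - q * of3 (Pi.single k 1) := by
  have h : (fun i => (1 - Ad q) i k) = Pi.single k 1 + -(Ad q *ᵥ Pi.single k 1) := by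
    funext i
    simp [Matrix.one_apply, Pi.single_apply, sub_eq_add_neg]
  rw [h, of3_add, of3_neg, of3_Ad_mulVec, add_mul, neg_mul, inv_mul_cancel_right₀ hq, sub_eq_add_neg]

theorem det_Xi {y : Tup ι} (hy : UnitT y) (hs : Slice y) : 0 < (Xi y * gauge y).det := by
  obtain ⟨h1, h2, h3, h4, h5⟩ := hs
  have h : ∀ k k', (Xi y * gauge y) k k' =
      im3 (gf fun x => of3 (Pi.single k' 1) * y x - y x * of3 (Pi.single k' 1)) k := fun k k' => by
    have := congrFun (Xi_mulVec y fun p => gauge y p k') k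
    simp only [gauge, Matrix.of_apply, LocB_gauge (qu_ne (hy _))] at this
    exact this
  rw [Matrix.det_fin_three]
  simp only [h]
  simp [im3, gf, of3, h2, h3, h5]
  nlinarith [mul_pos (mul_pos h1 h1) h4]

/-- the real part as a continuous linear map -/
noncomputable def LocB_re : ℍ[ℝ] →L[ℝ] ℝ := LinearMap.toContinuousLinearMap
  { toFun := fun q => q.re
    map_add' := fun a b => by simp
    map_smul' := fun c a => by simp }

/-- `im3` as a continuous linear map -/
noncomputable def LocB_im3 : ℍ[ℝ] →L[ℝ] (Fin 3 → ℝ) := LinearMap.toContinuousLinearMap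
  { toFun := im3
    map_add' := fun a b => by funext i; fin_cases i <;> simp [im3]
    map_smul' := fun c a => by funext i; fin_cases i <;> simp [im3] }

/-- `gf` as a continuous linear map -/
noncomputable def LocB_gf : Tup ι →L[ℝ] ℍ[ℝ] := LinearMap.toContinuousLinearMap
  { toFun := gf
    map_add' := fun a b => by ext <;> simp [gf]
    map_smul' := fun c a => by ext <;> simp [gf] }

theorem LocB_ev {y : Tup ι} (hy : UnitT y) (w : FreeGroup (Gn ι)) (ξ : Gn ι → Fin 3 → ℝ) :
    fderiv ℝ (fun z : Tup ι => ev z w) y (fun x => of3 (ξ x) * y x) =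
      of3 (∑ x, rz (AdW y) (fox FreeGroup.of w x) *ᵥ ξ x) * ev y w := by
  set v : Tup ι := fun x => of3 (ξ x) * y x with hv
  have h0 : y + (0 : ℝ) • v = y := by simp
  have hl : HasFDerivAt (fun s : ℝ => y + s • v) ((1 : ℝ →L[ℝ] ℝ).smulRight v) 0 :=
    ((hasFDerivAt_id (0 : ℝ)).smul_const v).const_add y
  obtain ⟨L, hL, hL'⟩ := hasFDerivAt_ev_fox (Y := fun s : ℝ => y + s • v) (p := 0)
    (fun x => by rw [h0]; exact qu_ne (hy x)) (fun x => (1 : ℝ →L[ℝ] ℝ).smulRight (ξ x))
    (fun x => ⟨_, hasFDerivAt_pi'.1 hl x, fun s => by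
      rw [h0]
      ext <;> simp [hv, of3] <;> ring⟩) w
  have hw : HasFDerivAt (fun z : Tup ι => ev z w) (fderiv ℝ (fun z : Tup ι => ev z w) y) (y + (0 : ℝ) • v) := by
    rw [h0]
    exact (((SM.word w).diff y hy).differentiableAt one_ne_zero).hasFDerivAt
  have h := congrArg (fun A : ℝ →L[ℝ] ℍ[ℝ] => A 1) ((HasFDerivAt.comp (f := fun s : ℝ => y + s • v) 0 hw hl).unique hL)
  simp only [hL', h0] at h
  simpa using h

theorem LocB_diff {g : Sys ι} {y : Tup ι} (hg : ∀ j, DifferentiableAt ℝ (g j) y) : DifferentiableAt ℝ (FF g) y := by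
  refine differentiableAt_pi.2 fun x => DifferentiableAt.add ?_ ?_
  · have h : DifferentiableAt ℝ (fun z : Tup ι => (‖z x‖ ^ 2 - 1) • (1 : ℍ[ℝ])) y :=
      (((differentiableAt_apply x y).norm_sq ℝ).sub_const 1).smul_const _
    refine h.congr_of_eventuallyEq (Eventually.of_forall fun z => ?_)
    simp only [normSq_eq_norm_mul_self, sq]
    ext <;> simp
  · cases x with
    | none => exact LocB_gf.differentiableAt
    | some j => exact (contDiff_im.differentiable one_ne_zero _).comp y (hg j)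

theorem LocB_fre {g : Sys ι} {y : Tup ι} (hg : ∀ j, DifferentiableAt ℝ (g j) y) (v : Tup ι) (x : Gn ι) :
    (fderiv ℝ (FF g) y v x).re = 2 * (y x * star (v x)).re := by
  have h1 := LocB_re.hasFDerivAt.comp y (hasFDerivAt_pi'.1 (LocB_diff hg).hasFDerivAt x)
  have h2 := ((hasFDerivAt_apply (𝕜 := ℝ) x y).norm_sq).sub_const 1
  have h3 : (LocB_re ∘ fun z => FF g z x) = fun z : Tup ι => ‖z x‖ ^ 2 - 1 := by
    funext z
    rw [sq, ← normSq_eq_norm_mul_self]
    cases x <;> simp [LocB_re, FF, gf]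
  rw [h3] at h1
  have h := congrArg (fun A : Tup ι →L[ℝ] ℝ => A v) (h1.unique h2)
  simpa [LocB_re, Quaternion.inner_def, mul_add] using h

theorem LocB_fnone {g : Sys ι} {y : Tup ι} (hg : ∀ j, DifferentiableAt ℝ (g j) y) (v : Tup ι) :
    im3 (fderiv ℝ (FF g) y v none) = im3 (gf v) := by
  have h1 := LocB_im3.hasFDerivAt.comp y (hasFDerivAt_pi'.1 (LocB_diff hg).hasFDerivAt none)
  have h2 := (LocB_im3.comp (LocB_gf (ι := ι))).hasFDerivAt (x := y)
  have h3 : (LocB_im3 ∘ fun z => FF g z none) = LocB_im3.comp (LocB_gf (ι := ι)) := by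
    funext z i
    fin_cases i <;> simp [LocB_im3, LocB_gf, FF, im3]
  rw [h3] at h1
  exact congrArg (fun A : Tup ι →L[ℝ] (Fin 3 → ℝ) => A v) (h1.unique h2)

theorem LocB_fsome {g : Sys ι} {y : Tup ι} (hg : ∀ j, DifferentiableAt ℝ (g j) y) (v : Tup ι) (j : Option ι) :
    im3 (fderiv ℝ (FF g) y v (some j)) = im3 (fderiv ℝ (g j) y v) := by
  have h1 := LocB_im3.hasFDerivAt.comp y (hasFDerivAt_pi'.1 (LocB_diff hg).hasFDerivAt (some j))
  have h2 := LocB_im3.hasFDerivAt.comp y (hg j).hasFDerivAt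
  have h3 : (LocB_im3 ∘ fun z => FF g z (some j)) = LocB_im3 ∘ g j := by
    funext z i
    fin_cases i <;> simp [LocB_im3, FF, im3]
  rw [h3] at h1
  exact congrArg (fun A : Tup ι →L[ℝ] (Fin 3 → ℝ) => A v) (h1.unique h2)

variable (ι) in
theorem loc : ∃ ε : ℝ, ε ≠ 0 ∧ ∀ (rel : Option ι → FreeGroup (Gn ι)) (f : Sys ι) (y : Tup ι) (e : ℝ), y ∈ Zs f →
    (∀ j, f j =ᶠ[𝓝 y] fun z => sg j • ev z (rel j)) → SignAt rel y e → 0 < ε * e * (fderiv ℝ (FF f) y).det := by
  set D : Matrix (Gn ι × Fin 3) (Gn ι × Fin 3) ℝ := diagonal fun p => if p.1 = none then 1 else -1 with hD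
  refine ⟨D.det, ?_, fun rel f y e hy hf he => ?_⟩
  · rw [hD, det_diagonal]
    exact Finset.prod_ne_zero_iff.2 fun p _ => by split_ifs <;> norm_num
  obtain ⟨hu, hs, hn⟩ := hy
  have hev : ∀ j, sg j • ev y (rel j) = -1 := fun j => by
    have h := hn j
    rw [(hf j).eq_of_nhds] at h
    refine h.eq_neg_one ?_
    rw [norm_smul, norm_ev_of_unitT hu]
    cases j <;> simp [sg]
  have hAd : ∀ j, AdW y (rel j) = 1 := fun j => by
    rw [AdW_apply, Ad_eq_one_iff (norm_ev_of_unitT hu _)]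
    have h := hev j
    cases j with
    | none => exact Or.inr (by simpa [sg] using h)
    | some a => exact Or.inl (by simpa [sg] using h)
  set g : Sys ι := fun j z => sg j • ev z (rel j) with hg
  have hfg : FF f =ᶠ[𝓝 y] FF g := by
    filter_upwards [Filter.eventually_all.2 hf] with z hz
    funext x
    cases x with
    | none => rfl
    | some j => simp only [FF, hz j, hg]
  have hw : ∀ j, DifferentiableAt ℝ (fun z : Tup ι => ev z (rel j)) y := fun j =>
    ((SM.word (rel j)).diff y hu).differentiableAt one_ne_zero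
  have hgd : ∀ j, DifferentiableAt ℝ (g j) y := fun j => (hw j).const_smul (sg j)
  have hdet := det_tup ((fderiv ℝ (FF g) y : Tup ι →ₗ[ℝ] Tup ι) ∘ₗ rmul y) 2 (D * JX rel y (Xi y))
    (fun ζ x => ?_) (fun ξ x i => ?_)
  · rw [LinearMap.det_comp, det_mul] at hdet
    have h1 := SignAt_pos hu hAd he (det_Xi hu hs)
    have h2 := det_rmul hu
    have h3 : D.det * D.det = 1 := by
      rw [← det_mul, hD, diagonal_mul_diagonal, det_diagonal]
      exact Finset.prod_eq_one fun p _ => by split_ifs <;> norm_num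
    rw [hfg.fderiv_eq]
    refine (mul_pos_iff_of_pos_right h2).1 ?_
    rw [mul_assoc, ContinuousLinearMap.det, hdet]
    have h4 : (0 : ℝ) < 2 ^ Fintype.card (Gn ι) := by positivity
    calc (0 : ℝ) < 2 ^ Fintype.card (Gn ι) * (D.det * D.det) * (e * (JX rel y (Xi y)).det) := by
          rw [h3]; positivity
      _ = _ := by ring
  · have h := LocB_fre hgd (rmul y ζ) x
    rw [show rmul y ζ x = ζ x * y x from rfl, star_mul, ← mul_assoc, self_mul_star, qu_normSq (hu x)] at h
    simpa using h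
  · rw [← mulVec_mulVec, hD, mulVec_diagonal]
    cases x with
    | none =>
      have h := LocB_fnone hgd (rmul y fun x' => of3 fun i' => ξ (x', i'))
      refine (congrFun h i).trans ?_
      rw [if_pos rfl, one_mul]
      exact (congrFun (Xi_mulVec y ξ) i).symm
    | some j =>
      have h := LocB_fsome hgd (rmul y fun x' => of3 fun i' => ξ (x', i')) j
      refine (congrFun h i).trans ?_
      rw [if_neg (by simp), hg]
      have h1 := LocB_ev hu (rel j) fun x' i' => ξ (x', i')
      simp only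
      rw [fderiv_fun_const_smul (hw j), _root_.smul_apply]
      erw [h1]
      rw [← mul_smul_comm, hev, mul_neg, mul_one, ← of3_neg, im3_of3]
      simp [JX, mulVec, dotProduct, Fintype.sum_prod_type]

end Crest.Agent.R251.Deg
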