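import Crest.Agent.R251.Deg.GenB
import Crest.Agent.R251.Deg.Cnt

/-!
# Row 251: the invariant `NN` of an admissible system
-/

set_option autoImplicit false
set_option linter.unusedSectionVars false

open Set Filter Topology Quaternion Module

namespace Crest.Agent.R251.Deg

variable {ι : Type} [Fintype ι] [DecidableEq ι]

theorem exists_good {f : Sys ι} (hf : Adm f) : ∃ l, Good (pf f l) := by
  have hB := genB1 id Function.injective_id hf
  obtain ⟨l, hl, -⟩ := exists_notMem (Λ := Option ι → KK ι → ℝ) hB hB hB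
  exact ⟨l, by simpa using hl⟩

theorem cnt_pf_eq {H : ℝ → Sys ι} (hH : HAdm H) {l₀ l₁ : Option ι → KK ι → ℝ} (g₀ : Good (pf (H 0) l₀))
    (g₁ : Good (pf (H 1) l₁)) : cnt (pf (H 0) l₀) = cnt (pf (H 1) l₁) := by
  have hl0 : ContDiff ℝ 1 fun s : ℝ => (1 - s) • l₀ + s • l₁ := by fun_prop
  have hc : ContDiff ℝ 1 fun s : ℝ => s * (1 - s) := by fun_prop
  have hB := genB0 id Function.injective_id (I := Ioo 0 1) Ioo_subset_Icc_self hH _ hc
    (fun s hs => (mul_pos hs.1 (sub_pos.2 hs.2)).ne') _ hl0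
  obtain ⟨l, hl, -⟩ := exists_notMem (Λ := Option ι → KK ι → ℝ) hB hB hB
  simp only [mem_ofPred_eq, not_exists, not_and, not_not, id] at hl
  let L : ℝ → Option ι → KK ι → ℝ := fun s j => ((1 - s) • l₀ + s • l₁) j + (s * (1 - s)) • l j
  have hL0 : L 0 = l₀ := by funext j; simp [L]
  have hL1 : L 1 = l₁ := by funext j; simp [L]
  have := cnt_homotopy (H := fun s => pf (H s) (L s))
    (fun j => (hH.hsm j).mul (HSM.pert (l := fun s => L s j) (by simp only [L]; fun_prop))) (fun s hs => by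
      rcases hs.1.eq_or_lt with h0 | h0
      · rw [← h0, hL0]; exact g₀
      rcases hs.2.eq_or_lt with h1 | h1
      · rw [h1, hL1]; exact g₁
      exact hl s ⟨h0, h1⟩)
  rwa [hL0, hL1] at this

theorem NN_eq {f : Sys ι} (hf : Adm f) {l : Option ι → KK ι → ℝ} (hl : Good (pf f l)) : NN f = cnt (pf f l) := by
  rw [NN, dif_pos (exists_good hf)]
  exact cnt_pf_eq hf.hadm (exists_good hf).choose_spec hl

theorem NN_good {f : Sys ι} (hf : Adm f) (hg : Good f) : NN f = cnt f := by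
  have := NN_eq hf (l := 0) (by rwa [pf_zero])
  rwa [pf_zero] at this

theorem NN_homotopy {H : ℝ → Sys ι} (hH : HAdm H) : NN (H 0) = NN (H 1) := by
  have h0 := hH.adm (left_mem_Icc.2 zero_le_one)
  have h1 := hH.adm (right_mem_Icc.2 zero_le_one)
  obtain ⟨l₀, g₀⟩ := exists_good h0
  obtain ⟨l₁, g₁⟩ := exists_good h1
  rw [NN_eq h0 g₀, NN_eq h1 g₁, cnt_pf_eq hH g₀ g₁]

theorem NN_nozero {f : Sys ι} (hf : Adm f) (h : ∀ y, UnitT y → ¬∀ j, Ng (f j y)) : NN f = 0 := by
  rw [NN_good hf fun y hy hj => (h y hy hj).elim, cnt,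
    show Zs f = ∅ from eq_empty_of_forall_notMem fun y hy => h y hy.1 hy.2.2, deg_empty]

theorem NN_slot {f : Sys ι} (hf : Adm f) (a : ι) {g : ℝ → Tup ι → ℍ[ℝ]} (hg : HSM g) :
    NN (Function.update f (some a) (g 0)) = NN (Function.update f (some a) (g 1)) :=
  NN_homotopy (hf.hupdate a hg)

end Crest.Agent.R251.Deg
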