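import Crest.Agent.R251.Deg.Add

/-!
# Row 251: `NN` of a system of words vanishes

Recipes.
* `ev_eq_one_of_abel`: `commutator` is `⁅⊤, ⊤⁆ ≤ ker (FreeGroup.lift fun a => un (y a))` (`Subgroup.commutator_le`,
  `commutatorElement_eq_one_iff_commute`; any two values commute by `FreeGroup.induction_on` twice).
* `ev_eq_one_of_kill`: `FreeGroup.lift (un ∘ y) = (FreeGroup.lift (un ∘ y')).comp (kill ι)` with `y' true = y none`, `y' false = y (some none)`.
* `expo_of_kill`: `expo w none = expo (kill ι w) true` by induction on `w`.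
* `NN_one`: `NN_nozero`.  `NN_neg`: `NN_mul` for `(-1) * (-1) = 1` gives `NN (slot -1) = 0`, then `-g = (-1) * g`.
* `NN_word`: induction on `w` (`ev_mul`, `NN_mul`, `expo_mul`; for inverses `ev y w⁻¹ * ev y w = 1`).
* `NN_sys_sign`: induction on a finset `S` outside which `σ = σ'`; `sys r σ w = update (sys r σ w) (some a) (σ a • ev · (w a))`.
* `NN_sys`: induction on a finset `S` outside which `w a` is a letter `of (some (some b))` (for all `w` at once), start with `univ`.  Step: `NN_word` in the
  slot `a`, each term is `sys r σ (update w a (of x))` with `σ a = 1`: for `x = t, u` the exponent vanishes, else induction hypothesis.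
  Base `S = ∅`: `w a = of (some (some (b a)))`.  If `b` is onto take `σ = -1`: a solution has all `y (some (some c)) = 1` (`Ng.eq_neg_one`), so
  `ev y r = 1` is not negative.  Otherwise `b` is not injective (`Finite.injective_iff_surjective`), `b a = b a'`, `a ≠ a'`: take
  `σ a = 1`, `σ a' = -1`; `Ng q` and `Ng (-q)` exclude each other.  `NN_nozero` in both cases.
-/

set_option autoImplicit false
set_option linter.unusedSectionVars false

open Set Filter Topology Quaternion Function

namespace Crest.Agent.R251.Deg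

open Crest.Agent.Lib.GR

variable {ι : Type} [Fintype ι] [DecidableEq ι]

theorem ev_eq_one_of_abel {y : Tup ι} (hy : UnitT y) (ha : Abel y) {r : FreeGroup (Gn ι)}
    (hr : r ∈ commutator (FreeGroup (Gn ι))) : ev y r = 1 := by
  have h1 : ∀ x x', Commute (un (y x)) (un (y x')) := fun x x' => Units.ext (by
    simp only [Units.val_mul, un_val (qu_ne (hy _))]
    exact ha x x')
  have h2 : ∀ (x) (w : FreeGroup (Gn ι)), Commute (un (y x)) (FreeGroup.lift (fun a => un (y a)) w) := by
    intro x w
    induction w using FreeGroup.induction_on with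
    | C1 => rw [map_one]; exact Commute.one_right _
    | of a => rw [FreeGroup.lift_apply_of]; exact h1 x a
    | inv_of a h => rw [map_inv]; exact h.inv_right
    | mul w w' h h' => rw [map_mul]; exact h.mul_right h'
  have h3 : ∀ w w' : FreeGroup (Gn ι), Commute (FreeGroup.lift (fun a => un (y a)) w)
      (FreeGroup.lift (fun a => un (y a)) w') := by
    intro w w'
    induction w using FreeGroup.induction_on with
    | C1 => rw [map_one]; exact Commute.one_left _
    | of a => rw [FreeGroup.lift_apply_of]; exact h2 a w'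
    | inv_of a h => rw [map_inv]; exact h.inv_left
    | mul w w'' h h' => rw [map_mul]; exact h.mul_left h'
  have h4 : commutator (FreeGroup (Gn ι)) ≤ (FreeGroup.lift fun a => un (y a)).ker := by
    rw [commutator_def, Subgroup.commutator_le]
    intro g _ g' _
    rw [MonoidHom.mem_ker, map_commutatorElement, commutatorElement_eq_one_iff_commute]
    exact h3 g g'
  rw [ev, MonoidHom.mem_ker.1 (h4 hr), Units.val_one]

theorem ev_eq_one_of_kill {y : Tup ι} (hy : ∀ b, y (some (some b)) = 1) {r : FreeGroup (Gn ι)}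
    (hr : kill ι r = 1) : ev y r = 1 := by
  have h : FreeGroup.lift (fun a => un (y a)) =
      (FreeGroup.lift fun b : Bool => un (cond b (y none) (y (some none)))).comp (kill ι) := by
    refine FreeGroup.ext_hom _ _ fun a => ?_
    rcases a with _ | _ | a
    · simp [kill]
    · simp [kill]
    · simp [kill, hy, un]
  rw [ev, h, MonoidHom.comp_apply, hr, map_one, Units.val_one]

theorem expo_of_kill {r : FreeGroup (Gn ι)} (hr : kill ι r = 1) : expo r none = 0 ∧ expo r (some none) = 0 := by
  have h : ∀ w : FreeGroup (Gn ι), expo w none = expo (kill ι w) true ∧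
      expo w (some none) = expo (kill ι w) false := by
    intro w
    induction w using FreeGroup.induction_on with
    | C1 => simp [expo_one]
    | of a => rcases a with _ | _ | a <;> simp [kill, expo_of, expo_one]
    | inv_of a h => rw [map_inv, expo_inv, expo_inv, expo_inv, expo_inv, h.1, h.2]; exact ⟨rfl, rfl⟩
    | mul w w' h h' =>
      rw [map_mul, expo_mul, expo_mul, expo_mul, expo_mul, h.1, h.2, h'.1, h'.2]; exact ⟨rfl, rfl⟩
  have := h r
  rwa [hr, expo_one, expo_one] at this

theorem Vana_sm_one : SM fun _ : Tup ι => (1 : ℍ[ℝ]) := by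
  simpa using SM.const (ι := ι) (c := 1) one_ne_zero

theorem Vana_sm_neg_one : SM fun _ : Tup ι => (-1 : ℍ[ℝ]) := by
  simpa using SM.const (ι := ι) (c := -1) (by norm_num)

theorem NN_one {f : Sys ι} (hf : Adm f) (a : ι) : NN (update f (some a) fun _ => 1) = 0 := by
  refine NN_nozero (hf.update a Vana_sm_one) fun y _ h => ?_
  have := (h (some a)).2
  rw [update_self] at this
  exact absurd this (by simp)

theorem NN_neg {f : Sys ι} (hf : Adm f) (a : ι) {g : Tup ι → ℍ[ℝ]} (hg : SM g) :
    NN (update f (some a) fun y => -g y) = NN (update f (some a) g) := by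
  have h1 := NN_mul hf a Vana_sm_neg_one Vana_sm_neg_one
  have h2 := NN_mul hf a Vana_sm_neg_one hg
  simp only [neg_mul, one_mul, neg_neg] at h1 h2
  rw [NN_one hf a] at h1
  rw [h2]
  linarith

theorem NN_word {f : Sys ι} (hf : Adm f) (a : ι) (w : FreeGroup (Gn ι)) :
    NN (update f (some a) fun y => ev y w) =
      ∑ x, (expo w x : ℝ) * NN (update f (some a) fun y => ev y (FreeGroup.of x)) := by
  induction w using FreeGroup.induction_on with
  | C1 => simp only [ev_one, expo_one, Int.cast_zero, zero_mul, Finset.sum_const_zero, NN_one hf a]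
  | of b => simp [expo_of]
  | inv_of b h =>
    have h1 := NN_mul hf a (SM.word (FreeGroup.of b)⁻¹) (SM.word (FreeGroup.of b))
    simp only [← ev_mul, inv_mul_cancel, ev_one] at h1
    rw [NN_one hf a, h] at h1
    simp only [expo_inv, Int.cast_neg, neg_mul, Finset.sum_neg_distrib]
    linarith
  | mul w w' h h' =>
    simp only [ev_mul, expo_mul, Int.cast_add, add_mul, Finset.sum_add_distrib]
    rw [NN_mul hf a (SM.word w) (SM.word w'), h, h']

/-- a system of signed words -/
noncomputable def sys (r : FreeGroup (Gn ι)) (σ : ι → ℝ) (w : ι → FreeGroup (Gn ι)) : Sys ι := fun j y =>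
  match j with
  | none => ev y r
  | some a => σ a • ev y (w a)

theorem adm_sys {r : FreeGroup (Gn ι)} (hr : r ∈ commutator (FreeGroup (Gn ι))) {σ : ι → ℝ}
    (hσ : ∀ a, σ a = 1 ∨ σ a = -1) (w : ι → FreeGroup (Gn ι)) : Adm (sys r σ w) := by
  refine ⟨fun j => ?_, fun y hy ha => ?_⟩
  · rcases j with _ | a
    · exact SM.word r
    · refine (SM.word (w a)).smul ?_
      rcases hσ a with h | h <;> rw [h] <;> norm_num
  · change 0 ≤ (ev y r).re
    rw [ev_eq_one_of_abel hy ha hr]
    simp

theorem Vanb_upd (r : FreeGroup (Gn ι)) (σ : ι → ℝ) (w : ι → FreeGroup (Gn ι)) (a : ι) (c : ℝ)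
    (v : FreeGroup (Gn ι)) :
    sys r (update σ a c) (update w a v) = update (sys r σ w) (some a) fun y => c • ev y v := by
  funext j
  rcases j with _ | b
  · rw [update_of_ne (by simp)]
    rfl
  · by_cases h : b = a
    · subst h
      rw [update_self]
      funext y
      simp only [sys, update_self]
    · rw [update_of_ne (by simpa using h)]
      funext y
      simp only [sys, update_of_ne h]

theorem Vanb_pm {σ : ι → ℝ} (hσ : ∀ a, σ a = 1 ∨ σ a = -1) (a : ι) {c : ℝ} (hc : c = 1 ∨ c = -1) (b : ι) :
    update σ a c b = 1 ∨ update σ a c b = -1 := by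
  by_cases h : b = a
  · rw [h, update_self]; exact hc
  · rw [update_of_ne h]; exact hσ b

theorem NN_sys_sign {r : FreeGroup (Gn ι)} (hr : r ∈ commutator (FreeGroup (Gn ι))) {σ σ' : ι → ℝ}
    (hσ : ∀ a, σ a = 1 ∨ σ a = -1) (hσ' : ∀ a, σ' a = 1 ∨ σ' a = -1) (w : ι → FreeGroup (Gn ι)) :
    NN (sys r σ w) = NN (sys r σ' w) := by
  suffices h : ∀ S : Finset ι, ∀ σ : ι → ℝ, (∀ a, σ a = 1 ∨ σ a = -1) → (∀ a ∉ S, σ a = σ' a) →
      NN (sys r σ w) = NN (sys r σ' w) from h Finset.univ σ hσ fun a ha => absurd (Finset.mem_univ a) ha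
  intro S
  induction S using Finset.induction_on with
  | empty =>
    intro σ _ h
    rw [show σ = σ' from funext fun a => h a (Finset.notMem_empty a)]
  | insert a S _ ih =>
    intro σ hσ h
    rw [← ih (update σ a (σ' a)) (Vanb_pm hσ a (hσ' a)) fun b hb => ?_]
    · by_cases e : σ a = σ' a
      · rw [← e, update_eq_self]
      have e' : σ a = -σ' a := by
        rcases hσ a with h1 | h1 <;> rcases hσ' a with h2 | h2 <;> simp_all
      have h1 := Vanb_upd r σ w a (σ a) (w a)
      have h2 := Vanb_upd r σ w a (σ' a) (w a)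
      rw [update_eq_self] at h1 h2
      rw [update_eq_self] at h1
      have hne : σ' a ≠ 0 := by rcases hσ' a with h2 | h2 <;> simp [h2]
      rw [h2, ← NN_neg (adm_sys hr hσ w) a ((SM.word (w a)).smul hne)]
      conv_lhs => rw [h1]
      simp only [e', neg_smul]
    · by_cases e : b = a
      · rw [e, update_self]
      · rw [update_of_ne e]
        exact h b (by simp [e, hb])

theorem Vanb_base {r : FreeGroup (Gn ι)} (hr : r ∈ commutator (FreeGroup (Gn ι))) (hk : kill ι r = 1) {σ : ι → ℝ}
    (hσ : ∀ a, σ a = 1 ∨ σ a = -1) (b : ι → ι) :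
    NN (sys r σ fun a => FreeGroup.of (some (some (b a)))) = 0 := by
  have hy0 : ∀ {y : Tup ι}, UnitT y → ∀ x, y x ≠ 0 := fun hy x h => by simpa [h] using hy x
  by_cases hb : Surjective b
  · have hσ' : ∀ a : ι, (fun _ => (-1 : ℝ)) a = 1 ∨ (fun _ => (-1 : ℝ)) a = -1 := fun _ => .inr rfl
    rw [NN_sys_sign hr hσ hσ']
    refine NN_nozero (adm_sys hr hσ' _) fun y hy h => ?_
    have h1 : ∀ c, y (some (some c)) = 1 := fun c => by
      obtain ⟨a, rfl⟩ := hb c
      have h2 := h (some a)
      simp only [sys, ev_of (hy0 hy _), neg_smul, one_smul] at h2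
      exact neg_inj.1 (h2.eq_neg_one (by rw [norm_neg]; exact hy _))
    have h2 := (h none).2
    simp only [sys, ev_eq_one_of_kill h1 hk] at h2
    norm_num at h2
  · rw [← Finite.injective_iff_surjective, Injective] at hb
    push Not at hb
    obtain ⟨a, a', hab, hne⟩ := hb
    have hσ' := Vanb_pm (σ := fun _ => 1) (fun _ => .inl rfl) a' (.inr rfl)
    rw [NN_sys_sign hr hσ hσ']
    refine NN_nozero (adm_sys hr hσ' _) fun y hy h => ?_
    have h1 := (h (some a)).2
    have h2 := (h (some a')).2
    simp only [sys, update_self, update_of_ne hne, hab, one_smul, neg_smul, re_neg] at h1 h2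
    linarith

theorem NN_sys {r : FreeGroup (Gn ι)} (hr : r ∈ commutator (FreeGroup (Gn ι))) (hk : kill ι r = 1) {σ : ι → ℝ}
    (hσ : ∀ a, σ a = 1 ∨ σ a = -1) {w : ι → FreeGroup (Gn ι)}
    (hw : ∀ a, expo (w a) none = 0 ∧ expo (w a) (some none) = 0) : NN (sys r σ w) = 0 := by
  suffices h : ∀ S : Finset ι, ∀ (σ : ι → ℝ) (w : ι → FreeGroup (Gn ι)), (∀ a, σ a = 1 ∨ σ a = -1) →
      (∀ a, expo (w a) none = 0 ∧ expo (w a) (some none) = 0) →
      (∀ a ∉ S, ∃ b, w a = FreeGroup.of (some (some b))) → NN (sys r σ w) = 0 from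
    h Finset.univ σ w hσ hw fun a ha => absurd (Finset.mem_univ a) ha
  intro S
  induction S using Finset.induction_on with
  | empty =>
    intro σ w hσ _ h
    choose b hb using fun a => h a (Finset.notMem_empty a)
    rw [show w = _ from funext hb]
    exact Vanb_base hr hk hσ b
  | insert a S _ ih =>
    intro σ w hσ hw h
    have hσ' := Vanb_pm hσ a (.inl rfl)
    have h1 : ∀ v, sys r (update σ a 1) (update w a v) = update (sys r σ w) (some a) fun y => ev y v := fun v => by
      simp only [Vanb_upd, one_smul]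
    rw [NN_sys_sign hr hσ hσ', ← update_eq_self a w, h1, NN_word (adm_sys hr hσ w)]
    refine Finset.sum_eq_zero fun x _ => ?_
    rcases x with _ | _ | c
    · rw [(hw a).1, Int.cast_zero, zero_mul]
    · rw [(hw a).2, Int.cast_zero, zero_mul]
    · rw [← h1, ih _ _ hσ' (fun b => ?_) fun b hb => ?_, mul_zero]
      · by_cases e : b = a
        · rw [e, update_self]
          simp [expo_of]
        · rw [update_of_ne e]
          exact hw b
      · by_cases e : b = a
        · exact ⟨c, by rw [e, update_self]⟩
        · rw [update_of_ne e]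
          exact h b (by simp [e, hb])

end Crest.Agent.R251.Deg
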